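import Vale.Agent.P268.H294.Psi

/-! A real isometry between rational forms can be approximated by a rational map which changes
the form by a self-adjoint matrix close to 1. -/

open Matrix

namespace Vale.Agent.P268.H294

section approx
set_option linter.unusedSectionVars false
variable {ι : Type} [Fintype ι] [DecidableEq ι]

/-- rational cast on matrices -/
noncomputable abbrev rc (M : Matrix ι ι ℚ) : Matrix ι ι ℝ := M.map (Rat.castHom ℝ)

theorem rc_mul (M N : Matrix ι ι ℚ) : rc (M * N) = rc M * rc N := Matrix.map_mul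
theorem rc_transpose (M : Matrix ι ι ℚ) : rc Mᵀ = (rc M)ᵀ := rfl
theorem rc_one : rc (1 : Matrix ι ι ℚ) = 1 :=
  Matrix.map_one _ (map_zero _) (map_one _)
theorem rc_smul (r : ℚ) (M : Matrix ι ι ℚ) : rc (r • M) = (r : ℝ) • rc M := by
  ext i j
  show ((Rat.castHom ℝ) (r * M i j)) = (r : ℝ) * (Rat.castHom ℝ) (M i j)
  simp
theorem rc_det (M : Matrix ι ι ℚ) : (rc M).det = ((M.det : ℚ) : ℝ) :=
  ((Rat.castHom ℝ).map_det M).symm
theorem rc_adj (M : Matrix ι ι ℚ) : rc M.adjugate = (rc M).adjugate :=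
  (Rat.castHom ℝ).map_adjugate M

/-- decomposition of a real solution of a rational linear system -/
theorem decomp (HA HB : Matrix ι ι ℚ) (P : Matrix ι ι ℝ) (h : rc HA * P = P * rc HB) :
    ∃ (n : ℕ) (r : Fin n → ℝ) (Pk : Fin n → Matrix ι ι ℚ),
      P = ∑ k, r k • rc (Pk k) ∧ ∀ k, HA * Pk k = Pk k * HB := by
  classical
  let V : Submodule ℚ ℝ := Submodule.span ℚ (Set.range fun ij : ι × ι => P ij.1 ij.2)
  have : FiniteDimensional ℚ V := FiniteDimensional.span_of_finite ℚ (Set.finite_range _)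
  let b := Module.finBasis ℚ V
  have hmem : ∀ i j, P i j ∈ V := fun i j => Submodule.subset_span ⟨(i, j), rfl⟩
  let Pk : Fin (Module.finrank ℚ V) → Matrix ι ι ℚ := fun k => Matrix.of fun i j =>
    b.repr ⟨P i j, hmem i j⟩ k
  have hP : ∀ i j, P i j = ∑ k, (Pk k i j : ℝ) * (b k : ℝ) := by
    intro i j
    have h1 := congrArg V.subtype (b.sum_repr ⟨P i j, hmem i j⟩)
    rw [map_sum] at h1
    simp only [Submodule.subtype_apply, map_smul] at h1
    rw [← h1]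
    refine Finset.sum_congr rfl fun k _ => ?_
    rw [Rat.smul_def]
    rfl
  refine ⟨_, fun k => (b k : ℝ), Pk, ?_, ?_⟩
  · ext i j
    rw [hP i j, Matrix.sum_apply]
    refine Finset.sum_congr rfl fun k _ => ?_
    rw [Matrix.smul_apply, smul_eq_mul, mul_comm]
    rfl
  · -- the coefficients
    intro k
    ext i j
    have h1 : ∀ i j, ∑ k, ((HA * Pk k - Pk k * HB) i j) • (b k : ℝ) = 0 := by
      intro i j
      have h2 := congrFun (congrFun h i) j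
      rw [Matrix.mul_apply, Matrix.mul_apply] at h2
      simp only [hP, Finset.mul_sum, Finset.sum_mul] at h2
      rw [Finset.sum_comm, Finset.sum_comm (s := (Finset.univ : Finset ι))] at h2
      have h3 := sub_eq_zero.mpr h2
      rw [← Finset.sum_sub_distrib] at h3
      rw [← h3]
      refine Finset.sum_congr rfl fun k _ => ?_
      rw [Rat.smul_def, Matrix.sub_apply, Matrix.mul_apply, Matrix.mul_apply]
      push_cast
      rw [sub_mul, Finset.sum_mul, Finset.sum_mul]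
      congr 1
      · refine Finset.sum_congr rfl fun l _ => ?_
        simp only [Matrix.map_apply, eq_ratCast]
        ring
      · refine Finset.sum_congr rfl fun l _ => ?_
        simp only [Matrix.map_apply, eq_ratCast]
        ring
    have h4 : ∑ k, ((HA * Pk k - Pk k * HB) i j) • b k = 0 := by
      apply Subtype.ext
      have := h1 i j
      push_cast
      exact this
    have h5 := Fintype.linearIndependent_iff.mp b.linearIndependent _ h4 k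
    rw [Matrix.sub_apply, sub_eq_zero] at h5
    exact h5

section norm
attribute [local instance] Matrix.linftyOpNormedRing Matrix.linftyOpNormedAlgebra
  Matrix.linftyOpNormedAddCommGroup Matrix.linftyOpNormedSpace

theorem norm_le_sum_abs (M : Matrix ι ι ℚ) : ‖M‖ ≤ ∑ i, ∑ j, |((M i j : ℚ) : ℝ)| := by
  rw [Matrix.linfty_opNorm_def]
  have h1 : ((Finset.univ : Finset ι).sup fun i : ι => ∑ j : ι, ‖M i j‖₊)
      ≤ ∑ i, ∑ j, ‖M i j‖₊ := by
    refine Finset.sup_le fun i _ => ?_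
    exact Finset.single_le_sum (f := fun i => ∑ j, ‖M i j‖₊) (fun _ _ => zero_le)
      (Finset.mem_univ i)
  have h2 : ((∑ i, ∑ j, ‖M i j‖₊ : NNReal) : ℝ) = ∑ i, ∑ j, |((M i j : ℚ) : ℝ)| := by
    push_cast
    refine Finset.sum_congr rfl fun i _ => Finset.sum_congr rfl fun j _ => ?_
    rw [← Real.norm_eq_abs, Rat.norm_cast_real]
  rw [← h2]
  exact_mod_cast h1

end norm

/-- **(a)**, same index type -/
theorem approx_aux {A B : Matrix ι ι ℚ} (hA : IsUnit A.det) (hB : IsUnit B.det)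
    (P : Matrix ι ι ℝ) (hP : IsUnit P.det) (h : Pᵀ * rc A * P = rc B) {ε : ℝ} (hε : 0 < ε) :
    ∃ X c : Matrix ι ι ℚ, IsUnit X.det ∧ cᵀ * A = A * c ∧ Xᵀ * (A * c) * X = B ∧
      ∑ i, ∑ j, |(((c - 1) i j : ℚ) : ℝ)| < ε := by
  have hA1 : A⁻¹ * A = 1 := Matrix.nonsing_inv_mul _ hA
  have hA2 : A * A⁻¹ = 1 := Matrix.mul_nonsing_inv _ hA
  have hB1 : B⁻¹ * B = 1 := Matrix.nonsing_inv_mul _ hB
  have hB2 : B * B⁻¹ = 1 := Matrix.mul_nonsing_inv _ hB
  have hP1 : P⁻¹ * P = 1 := Matrix.nonsing_inv_mul _ hP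
  have hP2 : P * P⁻¹ = 1 := Matrix.mul_nonsing_inv _ hP
  -- P intertwines
  have hint : rc (A⁻¹ * Aᵀ) * P = P * rc (B⁻¹ * Bᵀ) := by
    have h1 : Pᵀ * rc Aᵀ * P = rc Bᵀ := by
      rw [rc_transpose, rc_transpose, ← h, Matrix.transpose_mul, Matrix.transpose_mul,
        Matrix.transpose_transpose, Matrix.mul_assoc]
    have h2 : rc A * P * rc B⁻¹ = (P⁻¹)ᵀ := by
      have h3 : (P⁻¹)ᵀ * Pᵀ = 1 := by rw [← Matrix.transpose_mul, hP2, Matrix.transpose_one]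
      have h4 : rc B * rc B⁻¹ = 1 := by rw [← rc_mul, hB2, rc_one]
      calc rc A * P * rc B⁻¹ = (P⁻¹)ᵀ * Pᵀ * (rc A * P * rc B⁻¹) := by rw [h3, Matrix.one_mul]
        _ = (P⁻¹)ᵀ * (Pᵀ * rc A * P) * rc B⁻¹ := by simp only [Matrix.mul_assoc]
        _ = (P⁻¹)ᵀ * (rc B * rc B⁻¹) := by rw [h]; simp only [Matrix.mul_assoc]
        _ = (P⁻¹)ᵀ := by rw [h4, Matrix.mul_one]
    have h5 : rc A * (P * rc (B⁻¹ * Bᵀ)) = rc Aᵀ * P := by
      have h3 : (P⁻¹)ᵀ * Pᵀ = 1 := by rw [← Matrix.transpose_mul, hP2, Matrix.transpose_one]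
      calc rc A * (P * rc (B⁻¹ * Bᵀ)) = (rc A * P * rc B⁻¹) * rc Bᵀ := by
            rw [rc_mul]; simp only [Matrix.mul_assoc]
        _ = (P⁻¹)ᵀ * (Pᵀ * rc Aᵀ * P) := by rw [h2, h1]
        _ = ((P⁻¹)ᵀ * Pᵀ) * (rc Aᵀ * P) := by simp only [Matrix.mul_assoc]
        _ = rc Aᵀ * P := by rw [h3, Matrix.one_mul]
    have h6 : rc A⁻¹ * rc A = 1 := by rw [← rc_mul, hA1, rc_one]
    calc rc (A⁻¹ * Aᵀ) * P = rc A⁻¹ * (rc Aᵀ * P) := by rw [rc_mul, Matrix.mul_assoc]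
      _ = (rc A⁻¹ * rc A) * (P * rc (B⁻¹ * Bᵀ)) := by rw [← h5]; simp only [Matrix.mul_assoc]
      _ = P * rc (B⁻¹ * Bᵀ) := by rw [h6, Matrix.one_mul]
  obtain ⟨n, r, Pk, hPr, hPk⟩ := decomp _ _ P hint
  -- the continuous function
  let X : (Fin n → ℝ) → Matrix ι ι ℝ := fun q => ∑ k, q k • rc (Pk k)
  have hXr : X r = P := hPr.symm
  have hXc : Continuous X := by
    refine continuous_finsetSum _ fun k _ => ?_
    exact (continuous_apply k).smul continuous_const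
  let Φ : (Fin n → ℝ) × ℝ → Matrix ι ι ℝ := fun z =>
    (z.2 ^ 2) • (rc A⁻¹ * ((X z.1).adjugate)ᵀ * rc B * (X z.1).adjugate)
  have hΦc : Continuous Φ := by
    have h1 : Continuous fun z : (Fin n → ℝ) × ℝ => (X z.1).adjugate :=
      (hXc.comp continuous_fst).matrix_adjugate
    exact (continuous_snd.pow 2).smul
      (((continuous_const.matrix_mul h1.matrix_transpose).matrix_mul continuous_const).matrix_mul h1)
  let f : (Fin n → ℝ) → ℝ := fun q =>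
    ∑ i, ∑ j, |(Φ (q, ((X q).det)⁻¹) - 1) i j|
  have hdet0 : (X r).det ≠ 0 := by rw [hXr]; exact hP.ne_zero
  have hfc : ContinuousAt f r := by
    have h1 : ContinuousAt (fun q => ((X q).det)⁻¹) r :=
      (hXc.matrix_det.continuousAt).inv₀ hdet0
    have h2 : ContinuousAt (fun q => Φ (q, ((X q).det)⁻¹)) r :=
      hΦc.continuousAt.comp (f := fun q => (q, ((X q).det)⁻¹)) (continuousAt_id.prodMk h1)
    have h3 : Continuous fun M : Matrix ι ι ℝ => ∑ i, ∑ j, |(M - 1) i j| := by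
      refine continuous_finsetSum _ fun i _ => continuous_finsetSum _ fun j _ => ?_
      refine continuous_abs.comp ?_
      simp only [Matrix.sub_apply]
      exact (continuous_id.matrix_elem i j).sub continuous_const
    exact h3.continuousAt.comp h2
  have hinv : ∀ M : Matrix ι ι ℝ, M.det⁻¹ • M.adjugate = M⁻¹ := by
    intro M
    rw [Matrix.inv_def, Ring.inverse_eq_inv']
  have hfr : f r = 0 := by
    have h1 : Φ (r, ((X r).det)⁻¹) = 1 := by
      show ((X r).det⁻¹ ^ 2) • (rc A⁻¹ * ((X r).adjugate)ᵀ * rc B * (X r).adjugate) = 1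
      have h2 : ((X r).det⁻¹ ^ 2) • (rc A⁻¹ * ((X r).adjugate)ᵀ * rc B * (X r).adjugate)
          = rc A⁻¹ * ((X r).det⁻¹ • (X r).adjugate)ᵀ * rc B *
            ((X r).det⁻¹ • (X r).adjugate) := by
        rw [Matrix.transpose_smul, Matrix.mul_smul, Matrix.mul_smul, Matrix.smul_mul,
          Matrix.smul_mul, smul_smul, pow_two]
      rw [h2, hinv, hXr, ← h]
      have h3 : (P⁻¹)ᵀ * Pᵀ = 1 := by rw [← Matrix.transpose_mul, hP2, Matrix.transpose_one]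
      calc rc A⁻¹ * (P⁻¹)ᵀ * (Pᵀ * rc A * P) * P⁻¹
          = rc A⁻¹ * ((P⁻¹)ᵀ * Pᵀ) * rc A * (P * P⁻¹) := by simp only [Matrix.mul_assoc]
        _ = 1 := by rw [h3, hP2, Matrix.mul_one, Matrix.mul_one, ← rc_mul, hA1, rc_one]
    show ∑ i, ∑ j, |(Φ (r, ((X r).det)⁻¹) - 1) i j| = 0
    rw [h1, sub_self]
    simp
  have hev : ∀ᶠ q in nhds r, f q < ε ∧ (X q).det ≠ 0 := by
    refine Filter.Eventually.and ?_ ?_
    · exact hfc.eventually (by rw [hfr]; exact gt_mem_nhds hε)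
    · exact hXc.matrix_det.continuousAt.eventually_ne hdet0
  have hdense : DenseRange (Pi.map (fun (_ : Fin n) (q : ℚ) => (q : ℝ))) :=
    DenseRange.piMap fun _ => Rat.denseRange_cast
  obtain ⟨q, hq⟩ := hdense.exists_mem_open (isOpen_interior) ⟨r, mem_interior_iff_mem_nhds.mpr hev⟩
  have hq := interior_subset hq
  obtain ⟨hq1, hq2⟩ := hq
  set Xq : Matrix ι ι ℚ := ∑ k, q k • Pk k with hXq
  have hXX : X (Pi.map (fun (_ : Fin n) (q : ℚ) => (q : ℝ)) q) = rc Xq := by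
    ext i j
    simp only [X, hXq, Matrix.sum_apply, Matrix.smul_apply, Matrix.map_apply, Pi.map_apply,
      map_sum, eq_ratCast, smul_eq_mul, Rat.cast_mul, Rat.cast_sum]
  have hXdet : IsUnit Xq.det := by
    rw [isUnit_iff_ne_zero]
    intro h0
    apply hq2
    rw [hXX, rc_det, h0, Rat.cast_zero]
  have hX1 : Xq⁻¹ * Xq = 1 := Matrix.nonsing_inv_mul _ hXdet
  have hX2 : Xq * Xq⁻¹ = 1 := Matrix.mul_nonsing_inv _ hXdet
  have hXH : A⁻¹ * Aᵀ * Xq = Xq * (B⁻¹ * Bᵀ) := by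
    rw [hXq, Matrix.mul_sum, Matrix.sum_mul]
    refine Finset.sum_congr rfl fun k _ => ?_
    rw [Matrix.mul_smul, Matrix.smul_mul, hPk k]
  set c : Matrix ι ι ℚ := A⁻¹ * (Xq⁻¹)ᵀ * B * Xq⁻¹ with hcd
  have hAc : A * c = (Xq⁻¹)ᵀ * B * Xq⁻¹ := by
    rw [hcd]
    calc A * (A⁻¹ * (Xq⁻¹)ᵀ * B * Xq⁻¹) = (A * A⁻¹) * ((Xq⁻¹)ᵀ * B * Xq⁻¹) := by
          simp only [Matrix.mul_assoc]
      _ = _ := by rw [hA2, Matrix.one_mul]
  have hXt : (Xq⁻¹)ᵀ * Xqᵀ = 1 := by rw [← Matrix.transpose_mul, hX2, Matrix.transpose_one]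
  have hXt' : Xqᵀ * (Xq⁻¹)ᵀ = 1 := by rw [← Matrix.transpose_mul, hX1, Matrix.transpose_one]
  have hAt : Aᵀ * (A⁻¹)ᵀ = 1 := by rw [← Matrix.transpose_mul, hA1, Matrix.transpose_one]
  refine ⟨Xq, c, hXdet, ?_, ?_, ?_⟩
  · have e1 : Xq⁻¹ * (A⁻¹ * Aᵀ) = B⁻¹ * Bᵀ * Xq⁻¹ := by
      calc Xq⁻¹ * (A⁻¹ * Aᵀ) = Xq⁻¹ * (A⁻¹ * Aᵀ * Xq) * Xq⁻¹ := by
            rw [Matrix.mul_assoc, Matrix.mul_assoc _ Xq, hX2, Matrix.mul_one]
        _ = (Xq⁻¹ * Xq) * (B⁻¹ * Bᵀ) * Xq⁻¹ := by rw [hXH]; simp only [Matrix.mul_assoc]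
        _ = _ := by rw [hX1, Matrix.one_mul]
    have e2 : B * Xq⁻¹ * (A⁻¹ * Aᵀ) = Bᵀ * Xq⁻¹ := by
      calc B * Xq⁻¹ * (A⁻¹ * Aᵀ) = (B * B⁻¹) * Bᵀ * Xq⁻¹ := by
            rw [Matrix.mul_assoc, e1]; simp only [Matrix.mul_assoc]
        _ = _ := by rw [hB2, Matrix.one_mul]
    have e3 : Bᵀ * Xq⁻¹ * (A⁻¹)ᵀ * A = B * Xq⁻¹ := by
      rw [← e2]
      calc B * Xq⁻¹ * (A⁻¹ * Aᵀ) * (A⁻¹)ᵀ * A
          = B * Xq⁻¹ * A⁻¹ * (Aᵀ * (A⁻¹)ᵀ) * A := by simp only [Matrix.mul_assoc]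
        _ = B * Xq⁻¹ * (A⁻¹ * A) := by rw [hAt, Matrix.mul_one]; simp only [Matrix.mul_assoc]
        _ = _ := by rw [hA1, Matrix.mul_one]
    rw [hAc, hcd, Matrix.transpose_mul, Matrix.transpose_mul, Matrix.transpose_mul,
      Matrix.transpose_transpose]
    calc (Xq⁻¹)ᵀ * (Bᵀ * (Xq⁻¹ * (A⁻¹)ᵀ)) * A
        = (Xq⁻¹)ᵀ * (Bᵀ * Xq⁻¹ * (A⁻¹)ᵀ * A) := by simp only [Matrix.mul_assoc]
      _ = (Xq⁻¹)ᵀ * B * Xq⁻¹ := by rw [e3, Matrix.mul_assoc]
  · rw [hAc]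
    calc Xqᵀ * ((Xq⁻¹)ᵀ * B * Xq⁻¹) * Xq = (Xqᵀ * (Xq⁻¹)ᵀ) * B * (Xq⁻¹ * Xq) := by
          simp only [Matrix.mul_assoc]
      _ = B := by rw [hXt', hX1, Matrix.one_mul, Matrix.mul_one]
  · have hcΦ : Φ (Pi.map (fun (_ : Fin n) (q : ℚ) => (q : ℝ)) q,
        ((X (Pi.map (fun (_ : Fin n) (q : ℚ) => (q : ℝ)) q)).det)⁻¹) = rc c := by
      show ((X (Pi.map (fun (_ : Fin n) (q : ℚ) => (q : ℝ)) q)).det⁻¹ ^ 2) •
        (rc A⁻¹ * ((X (Pi.map (fun (_ : Fin n) (q : ℚ) => (q : ℝ)) q)).adjugate)ᵀ * rc B *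
          (X (Pi.map (fun (_ : Fin n) (q : ℚ) => (q : ℝ)) q)).adjugate) = rc c
      rw [hXX]
      have hc' : c = ((Xq.det)⁻¹ ^ 2) • (A⁻¹ * (Xq.adjugate)ᵀ * B * Xq.adjugate) := by
        rw [hcd, Matrix.inv_def Xq, Ring.inverse_eq_inv', Matrix.transpose_smul,
          Matrix.mul_smul, Matrix.mul_smul, Matrix.smul_mul,
          Matrix.smul_mul, smul_smul, pow_two]
      have h1 : rc (A⁻¹ * (Xq.adjugate)ᵀ * B * Xq.adjugate)
          = rc A⁻¹ * (rc Xq.adjugate)ᵀ * rc B * rc Xq.adjugate := by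
        rw [rc_mul, rc_mul, rc_mul, rc_transpose]
      rw [hc', rc_smul, h1, rc_adj, rc_det]
      push_cast
      rfl
    have h1 : ∑ i, ∑ j, |(((c - 1) i j : ℚ) : ℝ)|
        = ∑ i, ∑ j, |(rc c - 1) i j| := by
      refine Finset.sum_congr rfl fun i _ => Finset.sum_congr rfl fun j _ => ?_
      rw [← rc_one, Matrix.sub_apply, Matrix.sub_apply]
      simp
    rw [h1, ← hcΦ]
    exact hq1

section norm
attribute [local instance] Matrix.linftyOpNormedRing Matrix.linftyOpNormedAlgebra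
  Matrix.linftyOpNormedAddCommGroup Matrix.linftyOpNormedSpace

/-- **(a)** -/
theorem approx {ι κ : Type} [Fintype ι] [DecidableEq ι] [Fintype κ] [DecidableEq κ]
    {A : Matrix ι ι ℚ} {B : Matrix κ κ ℚ} (hA : IsUnit A.det) (hB : IsUnit B.det)
    (h : CongM (A.map (Rat.castHom ℝ)) (B.map (Rat.castHom ℝ))) :
    ∃ c : Matrix ι ι ℚ, cᵀ * A = A * c ∧ ‖c - 1‖ ≤ 1 / 2 ∧ CongM (A * c) B := by
  obtain ⟨P, Q, hPQ, hQP, hP⟩ := h
  have hcard : Fintype.card ι = Fintype.card κ := by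
    exact Matrix.square_of_invertible P Q hPQ hQP
  obtain e : ι ≃ κ := Fintype.equivOfCardEq hcard
  set B' : Matrix ι ι ℚ := B.submatrix e e with hB'
  have hBB' : CongM B' B := CongM.of_equiv e _ _ fun i j => rfl
  have hB'd : IsUnit B'.det := by rw [hB', Matrix.det_submatrix_equiv_self]; exact hB
  set P' : Matrix ι ι ℝ := P.submatrix id e with hP'
  have hP'eq : P'ᵀ * rc A * P' = rc B' := by
    ext i j
    have h1 := congrFun (congrFun hP (e i)) (e j)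
    rw [Matrix.mul_apply] at h1 ⊢
    simp only [Matrix.mul_apply, Matrix.transpose_apply] at h1 ⊢
    exact h1
  have hP'd : IsUnit P'.det := by
    have h1 : P' * (Q.submatrix e id) = 1 := by
      ext i j
      have h2 := congrFun (congrFun hPQ i) j
      rw [Matrix.mul_apply] at h2 ⊢
      rw [← h2, ← Equiv.sum_comp e]
      rfl
    exact Matrix.isUnit_det_of_right_inverse h1
  obtain ⟨X, c, hX, hc1, hc2, hc3⟩ := approx_aux hA hB'd P' hP'd hP'eq (ε := 1 / 2) (by norm_num)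
  refine ⟨c, hc1, (norm_le_sum_abs _).trans hc3.le, ?_⟩
  refine CongM.trans ?_ hBB'
  exact ⟨X, X⁻¹, Matrix.mul_nonsing_inv _ hX, Matrix.nonsing_inv_mul _ hX, hc2⟩

end norm

end approx
end Vale.Agent.P268.H294
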