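import Vale.Agent.P268.H294.Cancel

/-! **Block B1**: two nondegenerate rational square matrices which are congruent over ℝ have
rationally congruent high tensor powers, after tensoring with `L5`. -/

open Matrix
open scoped Kronecker

namespace Vale.Agent.P268.H294

/-- the subsemiring of nondegenerate classes -/
def NDs : Subsemiring (CL ℚ) where
  carrier := {x | ∃ (ι : Type) (_ : Fintype ι) (_ : DecidableEq ι) (A : Matrix ι ι ℚ),
    IsUnit A.det ∧ x = cl A}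
  mul_mem' := by
    rintro _ _ ⟨ι, _, _, A, hA, rfl⟩ ⟨κ, _, _, B, hB, rfl⟩
    refine ⟨ι × κ, inferInstance, inferInstance, A ⊗ₖ B, ?_, rfl⟩
    rw [Matrix.det_kronecker]
    exact (hA.pow _).mul (hB.pow _)
  one_mem' := ⟨Unit, inferInstance, inferInstance, 1, by simp, rfl⟩
  add_mem' := by
    rintro _ _ ⟨ι, _, _, A, hA, rfl⟩ ⟨κ, _, _, B, hB, rfl⟩
    refine ⟨ι ⊕ κ, inferInstance, inferInstance, Matrix.fromBlocks A 0 0 B, ?_, rfl⟩
    rw [Matrix.det_fromBlocks_zero₂₁]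
    exact hA.mul hB
  zero_mem' := ⟨Empty, inferInstance, inferInstance, 0, by simp, rfl⟩

theorem cl_mem_NDs {ι : Type} [Fintype ι] [DecidableEq ι] {A : Matrix ι ι ℚ}
    (hA : IsUnit A.det) : cl A ∈ NDs := ⟨ι, inferInstance, inferInstance, A, hA, rfl⟩

/-- **B1** -/
theorem b1 {ι κ : Type} [Fintype ι] [DecidableEq ι] [Fintype κ] [DecidableEq κ]
    {A : Matrix ι ι ℚ} {B : Matrix κ κ ℚ} (hA : IsUnit A.det) (hB : IsUnit B.det)
    (h : CongM (A.map (Rat.castHom ℝ)) (B.map (Rat.castHom ℝ))) :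
    ∃ M : ℕ, ∀ k : ℕ, 2 ^ M ∣ k → cl A ^ k * cl L5 = cl B ^ k * cl L5 := by
  obtain ⟨c, hc, hc1, hAB⟩ := approx hA hB h
  obtain ⟨m, hm⟩ := near_one hc hc1
  obtain ⟨Y, hY, hsq⟩ := psi_sq hc hc1 hA
  rw [cl_eq.mpr hAB] at hm hsq
  -- work in the nondegenerate classes
  have h1 : St ((2 : NDs) ^ m * ⟨cl A, cl_mem_NDs hA⟩) (2 ^ m * ⟨cl B, cl_mem_NDs hB⟩) := by
    refine ⟨0, ?_⟩
    rw [add_zero, add_zero]
    apply Subtype.ext
    push_cast
    exact hm.symm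
  have h2 : St ((⟨cl A, cl_mem_NDs hA⟩ : NDs) ^ 2 + ⟨cl B, cl_mem_NDs hB⟩ ^ 2)
      (2 * ⟨cl Y, cl_mem_NDs hY⟩) := by
    refine ⟨0, ?_⟩
    rw [add_zero, add_zero]
    apply Subtype.ext
    push_cast
    exact hsq
  obtain ⟨M, hM⟩ := pow_st h1 h2
  refine ⟨M, fun k hk => ?_⟩
  obtain ⟨⟨t, ht⟩, hk'⟩ := hM k hk
  have h3 := congrArg Subtype.val hk'
  push_cast at h3
  obtain ⟨τ, _, _, T, hT, rfl⟩ := ht
  -- representatives of the powers
  obtain ⟨α, _, _, A', hA'⟩ : ∃ (α : Type) (_ : Fintype α) (_ : DecidableEq α)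
      (A' : Matrix α α ℚ), cl A ^ k = cl A' := by
    refine CL.ind (P := fun x => ∃ (α : Type) (_ : Fintype α) (_ : DecidableEq α)
      (A' : Matrix α α ℚ), x = cl A') (fun α _ _ A' => ⟨α, inferInstance, inferInstance, A', rfl⟩)
      (cl A ^ k)
  obtain ⟨β, _, _, B', hB'⟩ : ∃ (β : Type) (_ : Fintype β) (_ : DecidableEq β)
      (B' : Matrix β β ℚ), cl B ^ k = cl B' := by
    refine CL.ind (P := fun x => ∃ (α : Type) (_ : Fintype α) (_ : DecidableEq α)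
      (A' : Matrix α α ℚ), x = cl A') (fun α _ _ A' => ⟨α, inferInstance, inferInstance, A', rfl⟩)
      (cl B ^ k)
  rw [hA', hB', CL.add_def, CL.add_def, cl_eq] at h3
  rw [hA', hB', CL.mul_def, CL.mul_def, cl_eq]
  exact cancel hT h3

end Vale.Agent.P268.H294
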