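import Vale.Agent.P268.H294.Cayley

/-! Cancellation of nondegenerate forms after tensoring with `L5`. -/

open Matrix
open scoped Kronecker

namespace Vale.Agent.P268.H294

section unitary
variable {ω τ : Type} [Fintype ω] [DecidableEq ω] [Fintype τ] [DecidableEq τ]

/-- a generalised reflection -/
theorem unitary_aux {W : Matrix ω ω ℚ} {T : Matrix τ τ ℚ} {w : Matrix ω τ ℚ}
    {w' : Matrix τ ω ℚ} {μ μ' : Matrix τ τ ℚ} (hμ : IsUnit μ.det) (hT : IsUnit T.det)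
    (h1 : w' * w = μ + μ') (h2 : wᵀ * W = T * w') (h3 : w'ᵀ * T = W * w)
    (h4 : μᵀ * T = T * μ') :
    (1 - w * μ⁻¹ * w')ᵀ * W * (1 - w * μ⁻¹ * w') = W := by
  have hμ' : IsUnit μ'.det := by
    have h5 := congrArg Matrix.det h4
    rw [Matrix.det_mul, Matrix.det_mul, Matrix.det_transpose] at h5
    have h6 : IsUnit (T.det * μ'.det) := by rw [← h5]; exact hμ.mul hT
    exact isUnit_of_mul_isUnit_right h6
  have hm1 : μ * μ⁻¹ = 1 := Matrix.mul_nonsing_inv _ hμ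
  have hm1' : μ'⁻¹ * μ' = 1 := Matrix.nonsing_inv_mul _ hμ'
  have hm2' : μ' * μ'⁻¹ = 1 := Matrix.mul_nonsing_inv _ hμ'
  have hmt : (μ⁻¹)ᵀ * μᵀ = 1 := by rw [← Matrix.transpose_mul, hm1, Matrix.transpose_one]
  have h5 : (μ⁻¹)ᵀ * T = T * μ'⁻¹ := by
    calc (μ⁻¹)ᵀ * T = (μ⁻¹)ᵀ * T * (μ' * μ'⁻¹) := by rw [hm2', Matrix.mul_one]
      _ = (μ⁻¹)ᵀ * (T * μ') * μ'⁻¹ := by simp only [Matrix.mul_assoc]
      _ = ((μ⁻¹)ᵀ * μᵀ) * T * μ'⁻¹ := by rw [← h4]; simp only [Matrix.mul_assoc]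
      _ = T * μ'⁻¹ := by rw [hmt, Matrix.one_mul]
  have h6 : (w * μ⁻¹ * w')ᵀ * W = W * (w * μ'⁻¹ * w') := by
    rw [Matrix.transpose_mul, Matrix.transpose_mul]
    calc w'ᵀ * ((μ⁻¹)ᵀ * wᵀ) * W = w'ᵀ * (μ⁻¹)ᵀ * (wᵀ * W) := by simp only [Matrix.mul_assoc]
      _ = w'ᵀ * ((μ⁻¹)ᵀ * T) * w' := by rw [h2]; simp only [Matrix.mul_assoc]
      _ = (w'ᵀ * T) * μ'⁻¹ * w' := by rw [h5]; simp only [Matrix.mul_assoc]
      _ = W * (w * μ'⁻¹ * w') := by rw [h3]; simp only [Matrix.mul_assoc]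
  have h7 : (w * μ'⁻¹ * w') * (w * μ⁻¹ * w') = w * μ'⁻¹ * w' + w * μ⁻¹ * w' := by
    calc (w * μ'⁻¹ * w') * (w * μ⁻¹ * w') = w * (μ'⁻¹ * (w' * w) * μ⁻¹) * w' := by
          simp only [Matrix.mul_assoc]
      _ = w * (μ'⁻¹ * (μ * μ⁻¹) + (μ'⁻¹ * μ') * μ⁻¹) * w' := by
          rw [h1]; simp only [Matrix.mul_assoc, Matrix.mul_add, Matrix.add_mul]
      _ = w * μ'⁻¹ * w' + w * μ⁻¹ * w' := by
          rw [hm1, hm1', Matrix.mul_one, Matrix.one_mul, Matrix.mul_add, Matrix.add_mul]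
  rw [Matrix.transpose_sub, Matrix.transpose_one, Matrix.sub_mul, Matrix.one_mul, h6]
  calc (W - W * (w * μ'⁻¹ * w')) * (1 - w * μ⁻¹ * w')
      = W - W * (w * μ⁻¹ * w') - W * (w * μ'⁻¹ * w')
        + W * ((w * μ'⁻¹ * w') * (w * μ⁻¹ * w')) := by
        rw [Matrix.mul_sub, Matrix.mul_one, Matrix.sub_mul, Matrix.mul_assoc W]
        abel
    _ = W := by
        rw [h7, Matrix.mul_add]
        abel

end unitary

theorem one_sub_mul {κ : Type} [Fintype κ] [DecidableEq κ] (a b : Matrix κ κ ℚ) :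
    (1 - a) * (1 - b) = 1 - a - b + a * b := by
  rw [Matrix.sub_mul, Matrix.mul_sub, Matrix.mul_sub, Matrix.one_mul, Matrix.one_mul,
    Matrix.mul_one]
  abel

section block
variable {α β τ : Type} [Fintype α] [DecidableEq α] [Fintype β] [DecidableEq β]
  [Fintype τ] [DecidableEq τ]

/-- block-triangular isometries -/
theorem block_cancel {A : Matrix α α ℚ} {X : Matrix β β ℚ} {T : Matrix τ τ ℚ}
    {G : Matrix (β ⊕ τ) (α ⊕ τ) ℚ} {H : Matrix (α ⊕ τ) (β ⊕ τ) ℚ}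
    (hGH : G * H = 1) (hHG : H * G = 1)
    (hG : Gᵀ * Matrix.fromBlocks X 0 0 T * G = Matrix.fromBlocks A 0 0 T)
    (h12 : G.toBlocks₁₂ = 0) (h22 : IsUnit G.toBlocks₂₂.det) : CongM X A := by
  set G11 := G.toBlocks₁₁
  set G21 := G.toBlocks₂₁
  set G22 := G.toBlocks₂₂
  have hGb : G = Matrix.fromBlocks G11 0 G21 G22 := by
    rw [← h12]; exact (Matrix.fromBlocks_toBlocks G).symm
  set H11 := H.toBlocks₁₁
  set H12 := H.toBlocks₁₂
  set H21 := H.toBlocks₂₁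
  set H22 := H.toBlocks₂₂
  have hHb : H = Matrix.fromBlocks H11 H12 H21 H22 := (Matrix.fromBlocks_toBlocks H).symm
  rw [hGb, hHb, Matrix.fromBlocks_multiply, ← Matrix.fromBlocks_one, Matrix.fromBlocks_inj] at hGH hHG
  rw [hGb, Matrix.fromBlocks_transpose, Matrix.fromBlocks_multiply, Matrix.fromBlocks_multiply,
    Matrix.fromBlocks_inj] at hG
  simp only [Matrix.mul_zero, Matrix.zero_mul, add_zero, zero_add, Matrix.transpose_zero]
    at hGH hHG hG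
  obtain ⟨a1, a2, a3, a4⟩ := hGH
  obtain ⟨b1, b2, b3, b4⟩ := hHG
  obtain ⟨c1, c2, c3, c4⟩ := hG
  have hz : G22 * G22⁻¹ = 1 := Matrix.mul_nonsing_inv _ h22
  have hG21 : G21ᵀ * T = 0 := by
    calc G21ᵀ * T = G21ᵀ * T * (G22 * G22⁻¹) := by rw [hz, Matrix.mul_one]
      _ = (G21ᵀ * T * G22) * G22⁻¹ := by simp only [Matrix.mul_assoc]
      _ = 0 := by rw [c2, Matrix.zero_mul]
  have hH12 : H12 = 0 := by
    calc H12 = H12 * (G22 * G22⁻¹) := by rw [hz, Matrix.mul_one]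
      _ = (H12 * G22) * G22⁻¹ := by simp only [Matrix.mul_assoc]
      _ = 0 := by rw [b2, Matrix.zero_mul]
  rw [hG21, Matrix.zero_mul, add_zero] at c1
  rw [hH12, Matrix.zero_mul, add_zero] at b1
  exact ⟨G11, H11, a1, b1, c1⟩

end block

section cancel
variable {α β τ : Type} [Fintype α] [DecidableEq α] [Fintype β] [DecidableEq β]
  [Fintype τ] [DecidableEq τ]

/-- **Cancellation after `⊗ L5`.** -/
theorem cancel {A : Matrix α α ℚ} {X : Matrix β β ℚ} {T : Matrix τ τ ℚ} (hT : IsUnit T.det)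
    (h : CongM (Matrix.fromBlocks A 0 0 T) (Matrix.fromBlocks X 0 0 T)) :
    CongM (A ⊗ₖ L5) (X ⊗ₖ L5) := by
  obtain ⟨Φ, Ψ, h1, h2, h3⟩ := h
  set W := Matrix.fromBlocks A 0 0 T with hW
  set W' := Matrix.fromBlocks X 0 0 T with hW'
  -- the inclusions of T
  set e : Matrix (α ⊕ τ) τ ℚ := Matrix.fromRows 0 1 with he
  set e' : Matrix (β ⊕ τ) τ ℚ := Matrix.fromRows 0 1 with he'
  have hee : eᵀ * e = 1 := by
    rw [he, Matrix.transpose_fromRows, Matrix.fromCols_mul_fromRows]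
    simp
  have hee' : e'ᵀ * e' = 1 := by
    rw [he', Matrix.transpose_fromRows, Matrix.fromCols_mul_fromRows]
    simp
  have hWe : W * e = e * T := by
    rw [hW, he, Matrix.fromBlocks_mul_fromRows, Matrix.fromRows_mul]
    simp
  have hWe' : W' * e' = e' * T := by
    rw [hW', he', Matrix.fromBlocks_mul_fromRows, Matrix.fromRows_mul]
    simp
  have heW : eᵀ * W = T * eᵀ := by
    rw [hW, he, Matrix.transpose_fromRows, Matrix.fromCols_mul_fromBlocks, Matrix.mul_fromCols]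
    simp
  have heW' : e'ᵀ * W' = T * e'ᵀ := by
    rw [hW', he', Matrix.transpose_fromRows, Matrix.fromCols_mul_fromBlocks, Matrix.mul_fromCols]
    simp
  set j : Matrix (α ⊕ τ) τ ℚ := Φ * e' with hj
  set j' : Matrix τ (α ⊕ τ) ℚ := e'ᵀ * Ψ with hj'
  have hΨ : Ψᵀ * Φᵀ = 1 := by rw [← Matrix.transpose_mul, h1, Matrix.transpose_one]
  have hjj : j' * j = 1 := by
    rw [hj, hj']
    calc e'ᵀ * Ψ * (Φ * e') = e'ᵀ * (Ψ * Φ) * e' := by simp only [Matrix.mul_assoc]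
      _ = 1 := by rw [h2, Matrix.mul_one, hee']
  have hjW : jᵀ * W = T * j' := by
    rw [hj, hj', Matrix.transpose_mul]
    calc e'ᵀ * Φᵀ * W = e'ᵀ * (Φᵀ * W * Φ) * Ψ := by
          simp only [Matrix.mul_assoc]; rw [h1, Matrix.mul_one]
      _ = T * (e'ᵀ * Ψ) := by rw [h3, heW', Matrix.mul_assoc]
  have hj'T : j'ᵀ * T = W * j := by
    rw [hj, hj', Matrix.transpose_mul, Matrix.transpose_transpose]
    calc Ψᵀ * e' * T = Ψᵀ * (Φᵀ * W * Φ) * e' := by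
          rw [h3, Matrix.mul_assoc, ← hWe', ← Matrix.mul_assoc]
      _ = (Ψᵀ * Φᵀ) * (W * (Φ * e')) := by simp only [Matrix.mul_assoc]
      _ = W * (Φ * e') := by rw [hΨ, Matrix.one_mul]
  obtain ⟨z, z', hz1, hz2, hzL, hzL', hdet⟩ := exists_z (j' * e)
  set T5 : Matrix (τ × Fin 4) (τ × Fin 4) ℚ := T ⊗ₖ L5 with hT5
  set W5 : Matrix ((α ⊕ τ) × Fin 4) ((α ⊕ τ) × Fin 4) ℚ := W ⊗ₖ L5 with hW5
  set e5 : Matrix ((α ⊕ τ) × Fin 4) (τ × Fin 4) ℚ := e ⊗ₖ (1 : Matrix (Fin 4) (Fin 4) ℚ)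
    with he5
  set e5' : Matrix (τ × Fin 4) ((α ⊕ τ) × Fin 4) ℚ := eᵀ ⊗ₖ (1 : Matrix (Fin 4) (Fin 4) ℚ)
    with he5'
  set w : Matrix ((α ⊕ τ) × Fin 4) (τ × Fin 4) ℚ := j ⊗ₖ z - e5 with hw
  set w' : Matrix (τ × Fin 4) ((α ⊕ τ) × Fin 4) ℚ := j' ⊗ₖ z' - e5' with hw'
  set μ : Matrix (τ × Fin 4) (τ × Fin 4) ℚ := 1 - (j' * e) ⊗ₖ z' with hμ
  set μ' : Matrix (τ × Fin 4) (τ × Fin 4) ℚ := 1 - (eᵀ * j) ⊗ₖ z with hμ'
  have hT5d : IsUnit T5.det := by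
    rw [hT5, Matrix.det_kronecker, L5_det, one_pow, mul_one]
    exact hT.pow _
  have hkt : ∀ {a b c d : Type} (M : Matrix a b ℚ) (N : Matrix c d ℚ),
      (M ⊗ₖ N)ᵀ = Mᵀ ⊗ₖ Nᵀ := fun M N => rfl
  have k1 : w' * w = μ + μ' := by
    rw [hw, hw', Matrix.sub_mul, Matrix.mul_sub, Matrix.mul_sub, he5, he5',
      ← Matrix.mul_kronecker_mul, ← Matrix.mul_kronecker_mul, ← Matrix.mul_kronecker_mul,
      ← Matrix.mul_kronecker_mul, hz2, hjj, hee, Matrix.mul_one, Matrix.mul_one,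
      Matrix.one_mul, Matrix.one_kronecker_one, hμ, hμ']
    abel
  have k2 : wᵀ * W5 = T5 * w' := by
    rw [hw, hw', Matrix.transpose_sub, he5, he5', hkt, hkt, Matrix.sub_mul, Matrix.mul_sub,
      hW5, hT5, ← Matrix.mul_kronecker_mul, ← Matrix.mul_kronecker_mul,
      ← Matrix.mul_kronecker_mul, ← Matrix.mul_kronecker_mul, hjW, hzL, heW,
      Matrix.transpose_one, Matrix.one_mul, Matrix.mul_one]
  have k3 : w'ᵀ * T5 = W5 * w := by
    rw [hw, hw', Matrix.transpose_sub, he5, he5', hkt, hkt, Matrix.sub_mul, Matrix.mul_sub,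
      hW5, hT5, ← Matrix.mul_kronecker_mul, ← Matrix.mul_kronecker_mul,
      ← Matrix.mul_kronecker_mul, ← Matrix.mul_kronecker_mul, hj'T, hzL', hWe,
      Matrix.transpose_one, Matrix.one_mul, Matrix.mul_one, Matrix.transpose_transpose]
  have k4 : μᵀ * T5 = T5 * μ' := by
    rw [hμ, hμ', Matrix.transpose_sub, Matrix.transpose_one, hkt, Matrix.sub_mul,
      Matrix.mul_sub, Matrix.one_mul, Matrix.mul_one, hT5, ← Matrix.mul_kronecker_mul,
      ← Matrix.mul_kronecker_mul, hzL', Matrix.transpose_mul, Matrix.mul_assoc, hj'T,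
      ← Matrix.mul_assoc, heW, Matrix.mul_assoc]
  have kU := unitary_aux hdet hT5d k1 k2 k3 k4
  set g := 1 - w * μ⁻¹ * w' with hg
  have hge : g * e5 = j ⊗ₖ z := by
    have hw'e : w' * e5 = -μ := by
      rw [hw', he5, he5', Matrix.sub_mul, ← Matrix.mul_kronecker_mul,
        ← Matrix.mul_kronecker_mul, hee, Matrix.mul_one, Matrix.mul_one,
        Matrix.one_kronecker_one, hμ]
      abel
    have hmi : μ⁻¹ * μ = 1 := Matrix.nonsing_inv_mul _ hdet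
    calc g * e5 = e5 - w * (μ⁻¹ * (w' * e5)) := by
          rw [hg, Matrix.sub_mul, Matrix.one_mul]; simp only [Matrix.mul_assoc]
      _ = e5 + w * (μ⁻¹ * μ) := by
          rw [hw'e, Matrix.mul_neg, Matrix.mul_neg, sub_neg_eq_add]
      _ = j ⊗ₖ z := by rw [hmi, Matrix.mul_one, hw]; abel
  -- g is invertible: explicit inverse is 1 - w μ'⁻¹ w'
  have hμ'd : IsUnit μ'.det := by
    have h5 := congrArg Matrix.det k4
    rw [Matrix.det_mul, Matrix.det_mul, Matrix.det_transpose] at h5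
    have h6 : IsUnit (T5.det * μ'.det) := by rw [← h5]; exact hdet.mul hT5d
    exact isUnit_of_mul_isUnit_right h6
  set g' := 1 - w * μ'⁻¹ * w' with hg'
  have hgg' : g * g' = 1 := by
    have hm1 : μ⁻¹ * μ = 1 := Matrix.nonsing_inv_mul _ hdet
    have hm2 : μ' * μ'⁻¹ = 1 := Matrix.mul_nonsing_inv _ hμ'd
    have h7 : (w * μ⁻¹ * w') * (w * μ'⁻¹ * w') = w * μ⁻¹ * w' + w * μ'⁻¹ * w' := by
      calc (w * μ⁻¹ * w') * (w * μ'⁻¹ * w') = w * (μ⁻¹ * (w' * w) * μ'⁻¹) * w' := by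
            simp only [Matrix.mul_assoc]
        _ = w * ((μ⁻¹ * μ) * μ'⁻¹ + μ⁻¹ * (μ' * μ'⁻¹)) * w' := by
            rw [k1]; simp only [Matrix.mul_assoc, Matrix.mul_add, Matrix.add_mul]
        _ = w * μ⁻¹ * w' + w * μ'⁻¹ * w' := by
            rw [hm1, hm2, Matrix.mul_one, Matrix.one_mul, Matrix.mul_add, Matrix.add_mul,
              add_comm]
    rw [hg, hg', one_sub_mul, h7]
    abel
  have hg'g : g' * g = 1 := by
    exact mul_eq_one_comm.mp hgg'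
  -- the total map
  set F : Matrix ((β ⊕ τ) × Fin 4) ((α ⊕ τ) × Fin 4) ℚ :=
    (Ψ ⊗ₖ (1 : Matrix (Fin 4) (Fin 4) ℚ)) * g with hF
  set F' : Matrix ((α ⊕ τ) × Fin 4) ((β ⊕ τ) × Fin 4) ℚ :=
    g' * (Φ ⊗ₖ (1 : Matrix (Fin 4) (Fin 4) ℚ)) with hF'
  have hFF' : F * F' = 1 := by
    calc F * F' = (Ψ ⊗ₖ (1 : Matrix (Fin 4) (Fin 4) ℚ)) * (g * g') *
          (Φ ⊗ₖ (1 : Matrix (Fin 4) (Fin 4) ℚ)) := by
          rw [hF, hF']; simp only [Matrix.mul_assoc]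
      _ = 1 := by
          rw [hgg', Matrix.mul_one, ← Matrix.mul_kronecker_mul, h2, Matrix.mul_one,
            Matrix.one_kronecker_one]
  have hF'F : F' * F = 1 := by
    calc F' * F = g' * ((Φ ⊗ₖ (1 : Matrix (Fin 4) (Fin 4) ℚ)) *
          (Ψ ⊗ₖ (1 : Matrix (Fin 4) (Fin 4) ℚ))) * g := by
          rw [hF, hF']; simp only [Matrix.mul_assoc]
      _ = 1 := by
          rw [← Matrix.mul_kronecker_mul, h1, Matrix.mul_one, Matrix.one_kronecker_one,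
            Matrix.mul_one, hg'g]
  have hFW : Fᵀ * (W' ⊗ₖ L5) * F = W5 := by
    have h5 : (Ψ ⊗ₖ (1 : Matrix (Fin 4) (Fin 4) ℚ))ᵀ * (W' ⊗ₖ L5) *
        (Ψ ⊗ₖ (1 : Matrix (Fin 4) (Fin 4) ℚ)) = W5 := by
      rw [hkt, ← Matrix.mul_kronecker_mul, ← Matrix.mul_kronecker_mul, Matrix.transpose_one,
        Matrix.one_mul, Matrix.mul_one, hW5, ← h3]
      congr 1
      calc Ψᵀ * (Φᵀ * W * Φ) * Ψ = (Ψᵀ * Φᵀ) * W * (Φ * Ψ) := by simp only [Matrix.mul_assoc]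
        _ = W := by rw [hΨ, h1, Matrix.one_mul, Matrix.mul_one]
    calc Fᵀ * (W' ⊗ₖ L5) * F = gᵀ * ((Ψ ⊗ₖ (1 : Matrix (Fin 4) (Fin 4) ℚ))ᵀ * (W' ⊗ₖ L5) *
        (Ψ ⊗ₖ (1 : Matrix (Fin 4) (Fin 4) ℚ))) * g := by
          rw [hF, Matrix.transpose_mul]; simp only [Matrix.mul_assoc]
      _ = W5 := by rw [h5]; exact kU
  have hFe : F * e5 = e' ⊗ₖ z := by
    rw [hF, Matrix.mul_assoc, hge, ← Matrix.mul_kronecker_mul, Matrix.one_mul, hj,
      ← Matrix.mul_assoc, h2, Matrix.one_mul]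
  -- reindexing
  set ea : (α × Fin 4) ⊕ (τ × Fin 4) ≃ (α ⊕ τ) × Fin 4 := (Equiv.sumProdDistrib α τ (Fin 4)).symm
    with hea
  set eb : (β × Fin 4) ⊕ (τ × Fin 4) ≃ (β ⊕ τ) × Fin 4 := (Equiv.sumProdDistrib β τ (Fin 4)).symm
    with heb
  have hWs : (W5.submatrix ea ea) = Matrix.fromBlocks (A ⊗ₖ L5) 0 0 T5 := by
    ext (⟨i, k⟩ | ⟨i, k⟩) (⟨i', k'⟩ | ⟨i', k'⟩) <;>
      simp [hW5, hW, hea, hT5, Equiv.sumProdDistrib]
  have hWs' : ((W' ⊗ₖ L5).submatrix eb eb) = Matrix.fromBlocks (X ⊗ₖ L5) 0 0 T5 := by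
    ext (⟨i, k⟩ | ⟨i, k⟩) (⟨i', k'⟩ | ⟨i', k'⟩) <;>
      simp [hW', heb, hT5, Equiv.sumProdDistrib]
  have hcol : ∀ x t k, F x (Sum.inr t, k) = (e' ⊗ₖ z) x (t, k) := by
    intro x t k
    rw [← hFe, Matrix.mul_apply, Finset.sum_eq_single (Sum.inr t, k)]
    · simp [he5, he]
    · rintro ⟨i | i, l⟩ _ hne
      · simp [he5, he]
      · have : ¬ (i = t ∧ l = k) := by
          rintro ⟨rfl, rfl⟩; exact hne rfl
        by_cases hit : i = t
        · have hlk : l ≠ k := fun h => this ⟨hit, h⟩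
          simp [he5, he, Matrix.one_apply, hlk]
        · simp [he5, he, Matrix.one_apply, hit]
    · simp
  refine CongM.symm (block_cancel (G := F.submatrix eb ea) (H := F'.submatrix ea eb) (T := T5)
    ?_ ?_ ?_ ?_ ?_)
  · rw [Matrix.submatrix_mul_equiv, hFF', Matrix.submatrix_one_equiv]
  · rw [Matrix.submatrix_mul_equiv, hF'F, Matrix.submatrix_one_equiv]
  · rw [← hWs', ← hWs, Matrix.transpose_submatrix, Matrix.submatrix_mul_equiv,
      Matrix.submatrix_mul_equiv, hFW]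
  · ext ⟨i, k⟩ ⟨t, l⟩
    show F (eb (Sum.inl (i, k))) (ea (Sum.inr (t, l))) = 0
    have : ea (Sum.inr (t, l)) = (Sum.inr t, l) := rfl
    rw [this, hcol]
    have : eb (Sum.inl (i, k)) = (Sum.inl i, k) := rfl
    rw [this]
    simp [he']
  · have : (F.submatrix eb ea).toBlocks₂₂ = (1 : Matrix τ τ ℚ) ⊗ₖ z := by
      ext ⟨i, k⟩ ⟨t, l⟩
      show F (eb (Sum.inr (i, k))) (ea (Sum.inr (t, l))) = _
      have : ea (Sum.inr (t, l)) = (Sum.inr t, l) := rfl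
      rw [this, hcol]
      have : eb (Sum.inr (i, k)) = (Sum.inr i, k) := rfl
      rw [this]
      simp [he']
    rw [this, Matrix.det_kronecker, Matrix.det_one, one_pow, one_mul]
    exact (Matrix.isUnit_det_of_right_inverse hz1).pow _

end cancel
end Vale.Agent.P268.H294
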