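import Vale.Agent.P268.H294.Approx

/-! The form of `z^5` and its many rational isometries. -/

open Matrix
open scoped Kronecker

namespace Vale.Agent.P268.H294

/-- the Seifert matrix of `z^5` -/
def L5 : Matrix (Fin 4) (Fin 4) ℚ := !![1, -1, 0, 0; 0, 1, -1, 0; 0, 0, 1, -1; 0, 0, 0, 1]

/-- `ζ - ζ⁻¹` -/
def del : Matrix (Fin 4) (Fin 4) ℚ := !![1, -1, 0, -1; 2, 0, -1, -1; 1, 1, 0, -2; 1, 0, 1, -1]

theorem L5_det : L5.det = 1 := by
  have h : L5.BlockTriangular id := by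
    intro i j hij
    fin_cases i <;> fin_cases j <;> simp_all [L5]
  rw [Matrix.det_of_isUpperTriangular h]
  simp [Fin.prod_univ_four, L5]

theorem del_adj : delᵀ * L5 = -(L5 * del) := by
  ext i j
  fin_cases i <;> fin_cases j <;>
    simp [L5, del, Matrix.mul_apply, Fin.sum_univ_four] <;> norm_num

/-- `δ²` -/
def ep : Matrix (Fin 4) (Fin 4) ℚ := !![-2, -1, 0, 1; 0, -3, -1, 1; 1, -1, -3, 0; 1, 0, -1, -2]

theorem del_sq : del * del = ep := by
  ext i j
  fin_cases i <;> fin_cases j <;>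
    simp [ep, del, Matrix.mul_apply, Fin.sum_univ_four] <;> norm_num

theorem ep_sq : ep * ep = -((5 : ℚ) • ep + (5 : ℚ) • 1) := by
  ext i j
  fin_cases i <;> fin_cases j <;>
    simp [ep, Matrix.mul_apply, Fin.sum_univ_four] <;> norm_num

theorem ep_del : ep * del = del * ep := by rw [← del_sq, Matrix.mul_assoc]

/-- denominators -/
def Dz (τ : ℚ) : ℚ := 1 + 5 * τ ^ 2 + 5 * τ ^ 4

theorem Dz_pos (τ : ℚ) : 0 < Dz τ := by
  unfold Dz; positivity

/-- the family of isometries -/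
def zz (τ : ℚ) : Matrix (Fin 4) (Fin 4) ℚ :=
  (Dz τ)⁻¹ • (((1 : Matrix (Fin 4) (Fin 4) ℚ) - τ • del) * (1 - τ • del) *
    ((1 + 5 * τ ^ 2) • (1 : Matrix (Fin 4) (Fin 4) ℚ) + τ ^ 2 • ep))

/-- inverse of `1 + τδ` -/
theorem one_add_del_inv (τ : ℚ) :
    (1 + τ • del) * ((1 - τ • del) * ((1 + 5 * τ ^ 2) • (1 : Matrix (Fin 4) (Fin 4) ℚ)
      + τ ^ 2 • ep)) = Dz τ • 1 := by
  rw [← Matrix.mul_assoc]
  have h1 : ((1 : Matrix (Fin 4) (Fin 4) ℚ) + τ • del) * (1 - τ • del) = 1 - τ ^ 2 • ep := by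
    simp only [Matrix.mul_sub, Matrix.add_mul, Matrix.one_mul, Matrix.mul_one,
      Matrix.smul_mul, Matrix.mul_smul, smul_smul, del_sq]
    module
  rw [h1, Dz]
  simp only [Matrix.mul_add, Matrix.sub_mul, Matrix.one_mul, Matrix.mul_one,
      Matrix.smul_mul, Matrix.mul_smul, smul_smul, ep_sq]
  module

theorem zz_comm (τ : ℚ) : (1 + τ • del) * zz τ = 1 - τ • del := by
  unfold zz
  rw [Matrix.mul_smul]
  have h1 : (1 + τ • del) * ((1 - τ • del) * (1 - τ • del) *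
      ((1 + 5 * τ ^ 2) • (1 : Matrix (Fin 4) (Fin 4) ℚ) + τ ^ 2 • ep))
      = (1 - τ • del) * ((1 + τ • del) * ((1 - τ • del) *
      ((1 + 5 * τ ^ 2) • (1 : Matrix (Fin 4) (Fin 4) ℚ) + τ ^ 2 • ep))) := by
    simp only [← Matrix.mul_assoc]
    congr 2
    simp only [Matrix.mul_sub, Matrix.add_mul, Matrix.one_mul, Matrix.mul_one,
      Matrix.sub_mul, Matrix.mul_add]
    abel
  rw [h1, one_add_del_inv, Matrix.mul_smul, Matrix.mul_one, smul_smul,
    inv_mul_cancel₀ (Dz_pos τ).ne', one_smul]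

theorem one_add_det (τ : ℚ) : IsUnit (1 + τ • del).det := by
  have h := one_add_del_inv τ
  have h2 : (1 + τ • del) * ((Dz τ)⁻¹ • ((1 - τ • del) *
      ((1 + 5 * τ ^ 2) • (1 : Matrix (Fin 4) (Fin 4) ℚ) + τ ^ 2 • ep))) = 1 := by
    rw [Matrix.mul_smul, h, smul_smul, inv_mul_cancel₀ (Dz_pos τ).ne', one_smul]
  exact Matrix.isUnit_det_of_right_inverse h2

theorem zz_eq (τ : ℚ) : zz τ = (1 + τ • del)⁻¹ * (1 - τ • del) := by
  rw [← zz_comm τ, ← Matrix.mul_assoc, Matrix.nonsing_inv_mul _ (one_add_det τ), Matrix.one_mul]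

theorem zz_comm_del (τ : ℚ) (σ : ℚ) : zz τ * (1 + σ • del) = (1 + σ • del) * zz τ := by
  rw [zz_eq]
  have h1 : (1 + τ • del) * (1 + σ • del) = (1 + σ • del) * (1 + τ • del) := by
    simp only [Matrix.add_mul, Matrix.one_mul, Matrix.mul_one, Matrix.smul_mul,
      Matrix.mul_smul, smul_smul, Matrix.mul_add]
    module
  have h2 := comm_inv (one_add_det τ) h1
  rw [← Matrix.mul_assoc, ← h2, Matrix.mul_assoc, Matrix.mul_assoc]
  congr 1
  simp only [Matrix.add_mul, Matrix.one_mul, Matrix.mul_one, Matrix.smul_mul,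
      Matrix.mul_smul, smul_smul, Matrix.mul_add, Matrix.sub_mul, Matrix.mul_sub]
  module

/-- `z(τ) z(-τ) = 1` -/
theorem zz_mul_neg (τ : ℚ) : zz τ * zz (-τ) = 1 := by
  have h1 := zz_comm τ
  have h2 := zz_comm (-τ)
  have h3 : (1 : Matrix (Fin 4) (Fin 4) ℚ) + -τ • del = 1 - τ • del := by module
  have h4 : (1 : Matrix (Fin 4) (Fin 4) ℚ) - -τ • del = 1 + τ • del := by module
  rw [h3, h4] at h2
  have h5 : (1 + τ • del) * (zz τ * zz (-τ)) = 1 + τ • del := by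
    rw [← Matrix.mul_assoc, h1, h2]
  calc zz τ * zz (-τ) = ((1 + τ • del)⁻¹ * (1 + τ • del)) * (zz τ * zz (-τ)) := by
        rw [Matrix.nonsing_inv_mul _ (one_add_det τ), Matrix.one_mul]
    _ = (1 + τ • del)⁻¹ * ((1 + τ • del) * (zz τ * zz (-τ))) := by rw [Matrix.mul_assoc]
    _ = 1 := by rw [h5, Matrix.nonsing_inv_mul _ (one_add_det τ)]

/-- `z(τ)` is an isometry of `L5` -/
theorem zz_adj (τ : ℚ) : (zz τ)ᵀ * L5 = L5 * zz (-τ) := by
  have h1 : ∀ σ : ℚ, ((1 : Matrix (Fin 4) (Fin 4) ℚ) + σ • del)ᵀ * L5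
      = L5 * (1 - σ • del) := by
    intro σ
    rw [Matrix.transpose_add, Matrix.transpose_one, Matrix.transpose_smul, Matrix.add_mul,
      Matrix.smul_mul, del_adj, Matrix.mul_sub, Matrix.mul_smul, Matrix.one_mul, Matrix.mul_one]
    module
  have h2 := zz_comm τ
  have h3 := congrArg (fun M => Mᵀ * L5) h2
  simp only [Matrix.transpose_mul] at h3
  rw [← zz_comm_del] at h2
  have h2' := congrArg (fun M => Mᵀ * L5) h2
  simp only [Matrix.transpose_mul] at h2'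
  have e1 : ((1 : Matrix (Fin 4) (Fin 4) ℚ) - τ • del)ᵀ * L5 = L5 * (1 + τ • del) := by
    have := h1 (-τ)
    rw [show (1 : Matrix (Fin 4) (Fin 4) ℚ) + -τ • del = 1 - τ • del by module,
      show (1 : Matrix (Fin 4) (Fin 4) ℚ) - -τ • del = 1 + τ • del by module] at this
    exact this
  rw [Matrix.mul_assoc, h1 τ, e1] at h3
  -- zzᵀ * (L5 * (1 - τδ)) = L5 (1 + τδ)
  have e2 : (1 - τ • del) * zz (-τ) = 1 + τ • del := by
    have := zz_comm (-τ)
    rw [show (1 : Matrix (Fin 4) (Fin 4) ℚ) + -τ • del = 1 - τ • del by module,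
      show (1 : Matrix (Fin 4) (Fin 4) ℚ) - -τ • del = 1 + τ • del by module] at this
    exact this
  have e3 : IsUnit ((1 : Matrix (Fin 4) (Fin 4) ℚ) - τ • del).det := by
    have := one_add_det (-τ)
    rwa [show (1 : Matrix (Fin 4) (Fin 4) ℚ) + -τ • del = 1 - τ • del by module] at this
  have e4 : zz (-τ) * (1 - τ • del) = 1 + τ • del := by
    have h := zz_comm_del (-τ) (-τ)
    rw [show (1 : Matrix (Fin 4) (Fin 4) ℚ) + -τ • del = 1 - τ • del by module] at h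
    rw [h, e2]
  calc (zz τ)ᵀ * L5 = (zz τ)ᵀ * L5 * ((1 - τ • del) * (1 - τ • del)⁻¹) := by
        rw [Matrix.mul_nonsing_inv _ e3, Matrix.mul_one]
    _ = ((zz τ)ᵀ * (L5 * (1 - τ • del))) * (1 - τ • del)⁻¹ := by simp only [Matrix.mul_assoc]
    _ = L5 * (zz (-τ) * (1 - τ • del)) * (1 - τ • del)⁻¹ := by rw [h3, e4]
    _ = L5 * zz (-τ) * ((1 - τ • del) * (1 - τ • del)⁻¹) := by simp only [Matrix.mul_assoc]
    _ = L5 * zz (-τ) := by rw [Matrix.mul_nonsing_inv _ e3, Matrix.mul_one]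

theorem del_det : IsUnit del.det := by
  have h1 : del * (-(1 / 5 : ℚ) • (del * (ep + (5 : ℚ) • 1))) = 1 := by
    rw [Matrix.mul_smul, ← Matrix.mul_assoc, del_sq, Matrix.mul_add, ep_sq, Matrix.mul_smul,
      Matrix.mul_one]
    module
  exact Matrix.isUnit_det_of_right_inverse h1

theorem zz_sub_one_det {τ : ℚ} (hτ : τ ≠ 0) : IsUnit (zz τ - 1).det := by
  have h1 : (1 + τ • del) * (zz τ - 1) = (-2 * τ) • del := by
    rw [Matrix.mul_sub, zz_comm, Matrix.mul_one]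
    module
  have h2 : IsUnit ((1 + τ • del) * (zz τ - 1)).det := by
    rw [h1, Matrix.det_smul]
    refine IsUnit.mul ?_ del_det
    exact (IsUnit.pow _ (isUnit_iff_ne_zero.mpr (by simpa using hτ)))
  rw [Matrix.det_mul] at h2
  exact isUnit_of_mul_isUnit_right h2

theorem zz_zero : zz 0 = 1 := by
  simp [zz, Dz]

/-- evaluating a nonzero rational polynomial at some `z(τ)` gives an invertible matrix -/
theorem exists_good (p : Polynomial ℚ) (hp : p ≠ 0) :
    ∃ τ : ℚ, IsUnit ((Polynomial.aeval (zz τ)) p).det := by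
  obtain ⟨r, hr, hnd⟩ := p.exists_eq_pow_rootMultiplicity_mul_and_not_dvd hp 1
  have hr1 : r.eval 1 ≠ 0 := fun h => hnd (Polynomial.dvd_iff_isRoot.mpr h)
  have hzc : Continuous zz := by
    have hD : Continuous fun τ : ℚ => (Dz τ)⁻¹ := by
      refine Continuous.inv₀ (by unfold Dz; fun_prop) (fun τ => (Dz_pos τ).ne')
    unfold zz
    refine hD.smul ?_
    refine Continuous.matrix_mul (Continuous.matrix_mul ?_ ?_) ?_
    · fun_prop
    · fun_prop
    · fun_prop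
  have hrc : Continuous fun τ : ℚ => ((Polynomial.aeval (zz τ)) r).det := by
    refine Continuous.matrix_det ?_
    simp only [Polynomial.aeval_eq_sum_range]
    refine continuous_finsetSum _ fun i _ => ?_
    exact Continuous.const_smul (hzc.pow i) (r.coeff i)
  have h0 : ((Polynomial.aeval (zz 0)) r).det ≠ 0 := by
    rw [zz_zero]
    have : (Polynomial.aeval (1 : Matrix (Fin 4) (Fin 4) ℚ)) r
        = algebraMap ℚ _ (r.eval 1) := by
      have h := Polynomial.aeval_algebraMap_apply_eq_algebraMap_eval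
        (A := Matrix (Fin 4) (Fin 4) ℚ) (1 : ℚ) r
      rwa [map_one] at h
    rw [this, Matrix.algebraMap_eq_diagonal, Matrix.det_diagonal]
    simp [hr1]
  have hev : ∀ᶠ τ in nhds (0 : ℚ), ((Polynomial.aeval (zz τ)) r).det ≠ 0 :=
    hrc.continuousAt.eventually_ne h0
  obtain ⟨τ, hτ1, hτ2⟩ : ∃ τ : ℚ, ((Polynomial.aeval (zz τ)) r).det ≠ 0 ∧ τ ≠ 0 := by
    have h1 : ∀ᶠ τ in nhdsWithin (0 : ℚ) {0}ᶜ, ((Polynomial.aeval (zz τ)) r).det ≠ 0 :=
      hev.filter_mono nhdsWithin_le_nhds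
    have h2 : ∀ᶠ τ in nhdsWithin (0 : ℚ) {0}ᶜ, τ ≠ 0 := eventually_mem_nhdsWithin
    exact (h1.and h2).exists
  refine ⟨τ, ?_⟩
  rw [hr, map_mul, map_pow, map_sub, Polynomial.aeval_X, Polynomial.aeval_C, map_one,
    Matrix.det_mul, Matrix.det_pow]
  exact (IsUnit.pow _ (zz_sub_one_det hτ2)).mul (isUnit_iff_ne_zero.mpr hτ1)

/-- **choice of z**: for every rational matrix `a` there is an isometry `z` of `L5` with
`1 - a ⊗ z⁻¹` invertible -/
theorem exists_z {τ' : Type} [Fintype τ'] [DecidableEq τ'] (a : Matrix τ' τ' ℚ) :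
    ∃ z z' : Matrix (Fin 4) (Fin 4) ℚ, z * z' = 1 ∧ z' * z = 1 ∧ zᵀ * L5 = L5 * z' ∧
      z'ᵀ * L5 = L5 * z ∧ IsUnit (1 - a ⊗ₖ z').det := by
  obtain ⟨τ, hτ⟩ := exists_good a.charpoly a.charpoly_monic.ne_zero
  have hzz := zz_mul_neg τ
  have hzz' := zz_mul_neg (-τ)
  have ha := zz_adj τ
  have ha' := zz_adj (-τ)
  rw [neg_neg] at hzz' ha'
  refine ⟨zz τ, zz (-τ), hzz, hzz', ha, ha', ?_⟩
  set z := zz τ
  set z' := zz (-τ)
  set x : Matrix (τ' × Fin 4) (τ' × Fin 4) ℚ := (1 : Matrix τ' τ' ℚ) ⊗ₖ z with hx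
  set y : Matrix (τ' × Fin 4) (τ' × Fin 4) ℚ := a ⊗ₖ (1 : Matrix (Fin 4) (Fin 4) ℚ) with hy
  have hxy : Commute x y := by
    show x * y = y * x
    rw [hx, hy, ← Matrix.mul_kronecker_mul, ← Matrix.mul_kronecker_mul, Matrix.one_mul,
      Matrix.one_mul, Matrix.mul_one, Matrix.mul_one]
  have hxp : ∀ n, x ^ n = (1 : Matrix τ' τ' ℚ) ⊗ₖ (z ^ n) := by
    intro n
    induction n with
    | zero => rw [pow_zero, pow_zero, Matrix.one_kronecker_one]
    | succ n ih => rw [pow_succ, ih, hx, ← Matrix.mul_kronecker_mul, Matrix.one_mul, pow_succ]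
  have hyp : ∀ n, y ^ n = (a ^ n) ⊗ₖ (1 : Matrix (Fin 4) (Fin 4) ℚ) := by
    intro n
    induction n with
    | zero => rw [pow_zero, pow_zero, Matrix.one_kronecker_one]
    | succ n ih => rw [pow_succ, ih, hy, ← Matrix.mul_kronecker_mul, Matrix.one_mul, pow_succ]
  have hdvd : x - y ∣ (Polynomial.aeval x) a.charpoly - (Polynomial.aeval y) a.charpoly := by
    rw [Polynomial.aeval_eq_sum_range, Polynomial.aeval_eq_sum_range, ← Finset.sum_sub_distrib]
    refine Finset.dvd_sum fun n _ => ?_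
    rw [← smul_sub]
    obtain ⟨w, hw⟩ := hxy.sub_dvd_pow_sub_pow n
    exact ⟨a.charpoly.coeff n • w, by rw [hw, Matrix.mul_smul]⟩
  have hxval : (Polynomial.aeval x) a.charpoly
      = (1 : Matrix τ' τ' ℚ) ⊗ₖ ((Polynomial.aeval z) a.charpoly) := by
    rw [Polynomial.aeval_eq_sum_range, Polynomial.aeval_eq_sum_range]
    ext ⟨i, k⟩ ⟨j, l⟩
    simp only [hxp, Matrix.sum_apply, Matrix.smul_apply, Matrix.kroneckerMap_apply,
      Finset.mul_sum, smul_eq_mul]
    refine Finset.sum_congr rfl fun n _ => ?_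
    ring
  have hyval : (Polynomial.aeval y) a.charpoly = 0 := by
    have h1 := Matrix.aeval_self_charpoly a
    rw [Polynomial.aeval_eq_sum_range] at h1 ⊢
    ext ⟨i, k⟩ ⟨j, l⟩
    have h2 := congrFun (congrFun h1 i) j
    simp only [hyp, Matrix.sum_apply, Matrix.smul_apply, Matrix.kroneckerMap_apply,
      smul_eq_mul, Matrix.zero_apply] at h2 ⊢
    rw [← zero_mul ((1 : Matrix (Fin 4) (Fin 4) ℚ) k l), ← h2, Finset.sum_mul]
    refine Finset.sum_congr rfl fun n _ => ?_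
    ring
  rw [hxval, hyval, sub_zero] at hdvd
  obtain ⟨w, hw⟩ := hdvd
  have hu : IsUnit (x - y).det := by
    have h1 : IsUnit ((1 : Matrix τ' τ' ℚ) ⊗ₖ ((Polynomial.aeval z) a.charpoly)).det := by
      rw [Matrix.det_kronecker, Matrix.det_one, one_pow, one_mul]
      exact hτ.pow _
    rw [hw, Matrix.det_mul] at h1
    exact isUnit_of_mul_isUnit_left h1
  have h2 : (1 - a ⊗ₖ z') * x = x - y := by
    rw [Matrix.sub_mul, Matrix.one_mul, hx, ← Matrix.mul_kronecker_mul, Matrix.mul_one, hzz']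
  rw [← h2, Matrix.det_mul] at hu
  exact isUnit_of_mul_isUnit_left hu

end Vale.Agent.P268.H294
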