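import Vale.Agent.P268.H294.Gro

/-! Square matrices (bilinear forms) up to congruence, as a commutative semiring under
orthogonal sum and Kronecker product. -/

open Matrix

namespace Vale.Agent.P268.H294

/-- A bilinear form on a finite free module, given by its matrix. -/
structure BF (R : Type) : Type 1 where
  ι : Type
  [ft : Fintype ι]
  [de : DecidableEq ι]
  L : Matrix ι ι R

attribute [instance] BF.ft BF.de

/-- congruence of two square matrices with possibly different index types -/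
def CongM {R : Type} [CommRing R] {ι κ : Type} [Fintype ι] [DecidableEq ι] [Fintype κ]
    [DecidableEq κ] (A : Matrix ι ι R) (B : Matrix κ κ R) : Prop :=
  ∃ (P : Matrix ι κ R) (Q : Matrix κ ι R), P * Q = 1 ∧ Q * P = 1 ∧ Pᵀ * A * P = B

section cong
variable {R : Type} [CommRing R]
variable {ι κ μ ν : Type} [Fintype ι] [DecidableEq ι] [Fintype κ]
    [DecidableEq κ] [Fintype μ] [DecidableEq μ] [Fintype ν] [DecidableEq ν]

theorem CongM.refl (A : Matrix ι ι R) : CongM A A := ⟨1, 1, by simp, by simp, by simp⟩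

theorem CongM.symm {A : Matrix ι ι R} {B : Matrix κ κ R} (h : CongM A B) : CongM B A := by
  obtain ⟨P, Q, h1, h2, h3⟩ := h
  refine ⟨Q, P, h2, h1, ?_⟩
  rw [← h3]
  have : Qᵀ * Pᵀ = 1 := by rw [← transpose_mul, h1, transpose_one]
  calc Qᵀ * (Pᵀ * A * P) * Q = (Qᵀ * Pᵀ) * A * (P * Q) := by simp only [Matrix.mul_assoc]
    _ = A := by rw [this, h1, Matrix.one_mul, Matrix.mul_one]

theorem CongM.trans {A : Matrix ι ι R} {B : Matrix κ κ R} {C : Matrix μ μ R}
    (h : CongM A B) (h' : CongM B C) : CongM A C := by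
  obtain ⟨P, Q, h1, h2, h3⟩ := h
  obtain ⟨P', Q', h1', h2', h3'⟩ := h'
  refine ⟨P * P', Q' * Q, ?_, ?_, ?_⟩
  · calc P * P' * (Q' * Q) = P * (P' * Q') * Q := by simp only [Matrix.mul_assoc]
      _ = 1 := by rw [h1', Matrix.mul_one, h1]
  · calc Q' * Q * (P * P') = Q' * (Q * P) * P' := by simp only [Matrix.mul_assoc]
      _ = 1 := by rw [h2, Matrix.mul_one, h2']
  · rw [transpose_mul, ← h3', ← h3]
    simp only [Matrix.mul_assoc]

theorem CongM.of_equiv (e : ι ≃ κ) (A : Matrix ι ι R) (B : Matrix κ κ R)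
    (h : ∀ i j, A i j = B (e i) (e j)) : CongM A B := by
  refine ⟨Matrix.of fun i k => if e i = k then 1 else 0,
    Matrix.of fun k i => if e i = k then 1 else 0, ?_, ?_, ?_⟩
  · ext i j
    simp only [Matrix.mul_apply, Matrix.one_apply, Matrix.of_apply]
    rw [Finset.sum_eq_single (e i)]
    · simp [eq_comm]
    · intro b _ hb; simp [hb.symm]
    · simp
  · ext i j
    simp only [Matrix.mul_apply, Matrix.one_apply, Matrix.of_apply]
    rw [Finset.sum_eq_single (e.symm i)]
    · simp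
    · intro b _ hb
      have : e b ≠ i := fun h => hb (by rw [← h]; simp)
      simp [this]
    · simp
  · ext k l
    simp only [Matrix.mul_apply, Matrix.transpose_apply, Matrix.of_apply]
    rw [Finset.sum_eq_single (e.symm l)]
    · rw [Finset.sum_eq_single (e.symm k)]
      · simp [h]
      · intro b _ hb
        have : e b ≠ k := fun h => hb (by rw [← h]; simp)
        simp [this]
      · simp
    · intro b _ hb
      have : e b ≠ l := fun h => hb (by rw [← h]; simp)
      simp [this]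
    · simp

theorem CongM.fromBlocks {A : Matrix ι ι R} {B : Matrix κ κ R} {C : Matrix μ μ R}
    {D : Matrix ν ν R} (h : CongM A B) (h' : CongM C D) :
    CongM (Matrix.fromBlocks A 0 0 C) (Matrix.fromBlocks B 0 0 D) := by
  obtain ⟨P, Q, h1, h2, h3⟩ := h
  obtain ⟨P', Q', h1', h2', h3'⟩ := h'
  refine ⟨Matrix.fromBlocks P 0 0 P', Matrix.fromBlocks Q 0 0 Q', ?_, ?_, ?_⟩
  · simp [Matrix.fromBlocks_multiply, h1, h1']
  · simp [Matrix.fromBlocks_multiply, h2, h2']
  · simp [Matrix.fromBlocks_multiply, Matrix.fromBlocks_transpose, h3, h3']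

open scoped Kronecker

theorem CongM.kronecker {A : Matrix ι ι R} {B : Matrix κ κ R} {C : Matrix μ μ R}
    {D : Matrix ν ν R} (h : CongM A B) (h' : CongM C D) :
    CongM (A ⊗ₖ C) (B ⊗ₖ D) := by
  obtain ⟨P, Q, h1, h2, h3⟩ := h
  obtain ⟨P', Q', h1', h2', h3'⟩ := h'
  refine ⟨P ⊗ₖ P', Q ⊗ₖ Q', ?_, ?_, ?_⟩
  · rw [← Matrix.mul_kronecker_mul, h1, h1', Matrix.one_kronecker_one]
  · rw [← Matrix.mul_kronecker_mul, h2, h2', Matrix.one_kronecker_one]
  · rw [← h3, ← h3', Matrix.mul_kronecker_mul, Matrix.mul_kronecker_mul]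
    rfl

theorem CongM.map {R' : Type} [CommRing R'] (f : R →+* R') {A : Matrix ι ι R}
    {B : Matrix κ κ R} (h : CongM A B) : CongM (A.map f) (B.map f) := by
  obtain ⟨P, Q, h1, h2, h3⟩ := h
  refine ⟨P.map f, Q.map f, ?_, ?_, ?_⟩
  · rw [← Matrix.map_mul, h1]; exact Matrix.map_one f f.map_zero f.map_one
  · rw [← Matrix.map_mul, h2]; exact Matrix.map_one f f.map_zero f.map_one
  · rw [← h3, Matrix.map_mul, Matrix.map_mul]
    rfl

end cong

section semiring
variable (R : Type) [CommRing R]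

instance bfSetoid : Setoid (BF R) where
  r A B := CongM A.L B.L
  iseqv := ⟨fun A => CongM.refl A.L, fun h => h.symm, fun h h' => h.trans h'⟩

/-- isometry classes of bilinear forms -/
def CL : Type 1 := Quotient (bfSetoid R)

variable {R}

/-- the class of a square matrix -/
def cl {ι : Type} [Fintype ι] [DecidableEq ι] (A : Matrix ι ι R) : CL R :=
  Quotient.mk (bfSetoid R) ⟨ι, A⟩

theorem cl_eq {ι κ : Type} [Fintype ι] [DecidableEq ι] [Fintype κ] [DecidableEq κ]
    {A : Matrix ι ι R} {B : Matrix κ κ R} : cl A = cl B ↔ CongM A B :=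
  ⟨fun h => Quotient.exact h, fun h => Quotient.sound h⟩

theorem CL.ind {P : CL R → Prop}
    (h : ∀ (ι : Type) [Fintype ι] [DecidableEq ι] (A : Matrix ι ι R), P (cl A)) (x : CL R) :
    P x :=
  Quotient.ind (fun a => h a.ι a.L) x

open scoped Kronecker

namespace CL

instance : Zero (CL R) := ⟨cl (0 : Matrix Empty Empty R)⟩
instance : One (CL R) := ⟨cl (1 : Matrix Unit Unit R)⟩
instance : Add (CL R) := ⟨Quotient.map₂ (fun a b => ⟨a.ι ⊕ b.ι, Matrix.fromBlocks a.L 0 0 b.L⟩)
  (fun _ _ h _ _ h' => CongM.fromBlocks h h')⟩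
instance : Mul (CL R) := ⟨Quotient.map₂ (fun a b => ⟨a.ι × b.ι, a.L ⊗ₖ b.L⟩)
  (fun _ _ h _ _ h' => CongM.kronecker h h')⟩

variable {ι κ μ : Type} [Fintype ι] [DecidableEq ι] [Fintype κ] [DecidableEq κ]
  [Fintype μ] [DecidableEq μ]

theorem add_def (A : Matrix ι ι R) (B : Matrix κ κ R) :
    cl A + cl B = cl (Matrix.fromBlocks A 0 0 B) := rfl
theorem mul_def (A : Matrix ι ι R) (B : Matrix κ κ R) :
    cl A * cl B = cl (A ⊗ₖ B) := rfl
theorem zero_def : (0 : CL R) = cl (0 : Matrix Empty Empty R) := rfl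
theorem one_def : (1 : CL R) = cl (1 : Matrix Unit Unit R) := rfl

theorem mul_comm' (a b : CL R) : a * b = b * a := by
  revert b
  refine ind (P := fun a => ∀ b, a * b = b * a) (fun ι _ _ A => ?_) a
  refine ind (fun κ _ _ B => ?_)
  rw [mul_def, mul_def, cl_eq]
  refine CongM.of_equiv (Equiv.prodComm ι κ) _ _ ?_
  rintro ⟨i, k⟩ ⟨j, l⟩
  simp [mul_comm]

theorem add_comm' (a b : CL R) : a + b = b + a := by
  revert b
  refine ind (P := fun a => ∀ b, a + b = b + a) (fun ι _ _ A => ?_) a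
  refine ind (fun κ _ _ B => ?_)
  rw [add_def, add_def, cl_eq]
  refine CongM.of_equiv (Equiv.sumComm ι κ) _ _ ?_
  rintro (i | k) (j | l) <;> simp

theorem right_distrib' (a b c : CL R) : (a + b) * c = a * c + b * c := by
  revert b c
  refine ind (P := fun a => ∀ b c, (a + b) * c = a * c + b * c) (fun ι _ _ A => ?_) a
  refine ind (P := fun b => ∀ c, (_ + b) * c = _ * c + b * c) (fun κ _ _ B => ?_)
  refine ind (fun μ _ _ C => ?_)
  rw [mul_def, mul_def, add_def, add_def, mul_def, cl_eq]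
  refine CongM.of_equiv (Equiv.sumProdDistrib ι κ μ) _ _ ?_
  rintro ⟨i | k, m⟩ ⟨j | l, n⟩ <;> simp

instance : CommSemiring (CL R) where
  add_assoc := by
    intro a b c
    revert b c
    refine ind (P := fun a => ∀ b c, a + b + c = a + (b + c)) (fun ι _ _ A => ?_) a
    refine ind (P := fun b => ∀ c, _ + b + c = _ + (b + c)) (fun κ _ _ B => ?_)
    refine ind (fun μ _ _ C => ?_)
    rw [add_def, add_def, add_def, add_def, cl_eq]
    refine CongM.of_equiv (Equiv.sumAssoc ι κ μ) _ _ ?_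
    rintro ((i | k) | m) ((j | l) | n) <;> simp
  zero_add := by
    refine ind (fun ι _ _ A => ?_)
    rw [zero_def, add_def, cl_eq]
    refine CongM.of_equiv (Equiv.emptySum Empty ι) _ _ ?_
    rintro (i | k) (j | l)
    · exact i.elim
    · exact i.elim
    · exact j.elim
    · simp
  add_zero := by
    refine ind (fun ι _ _ A => ?_)
    rw [zero_def, add_def, cl_eq]
    refine CongM.of_equiv (Equiv.sumEmpty ι Empty) _ _ ?_
    rintro (i | k) (j | l)
    · simp
    · exact l.elim
    · exact k.elim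
    · exact k.elim
  add_comm := add_comm'
  nsmul := nsmulRec
  mul_assoc := by
    intro a b c
    revert b c
    refine ind (P := fun a => ∀ b c, a * b * c = a * (b * c)) (fun ι _ _ A => ?_) a
    refine ind (P := fun b => ∀ c, _ * b * c = _ * (b * c)) (fun κ _ _ B => ?_)
    refine ind (fun μ _ _ C => ?_)
    rw [mul_def, mul_def, mul_def, mul_def, cl_eq]
    refine CongM.of_equiv (Equiv.prodAssoc ι κ μ) _ _ ?_
    rintro ⟨⟨i, k⟩, m⟩ ⟨⟨j, l⟩, n⟩
    simp [mul_assoc]
  one_mul := by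
    refine ind (fun ι _ _ A => ?_)
    rw [one_def, mul_def, cl_eq]
    refine CongM.of_equiv (Equiv.punitProd ι) _ _ ?_
    rintro ⟨u, i⟩ ⟨v, j⟩
    simp
  mul_one := by
    refine ind (fun ι _ _ A => ?_)
    rw [one_def, mul_def, cl_eq]
    refine CongM.of_equiv (Equiv.prodPUnit ι) _ _ ?_
    rintro ⟨i, u⟩ ⟨j, v⟩
    simp
  right_distrib := right_distrib'
  left_distrib := by
    intro a b c
    rw [mul_comm' a, right_distrib', mul_comm' b, mul_comm' c]
  zero_mul := by
    refine ind (fun ι _ _ A => ?_)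
    rw [zero_def, mul_def, cl_eq]
    refine CongM.of_equiv (Equiv.emptyProd ι) _ _ ?_
    rintro ⟨u, i⟩ ⟨v, j⟩
    exact u.elim
  mul_zero := by
    refine ind (fun ι _ _ A => ?_)
    rw [zero_def, mul_def, cl_eq]
    refine CongM.of_equiv (Equiv.prodEmpty ι) _ _ ?_
    rintro ⟨i, u⟩ ⟨j, v⟩
    exact u.elim
  mul_comm := mul_comm'

end CL

end semiring

end Vale.Agent.P268.H294
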