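import Mathlib

/-! Grothendieck ring of a commutative semiring, and the nilpotence trick:
`2^m a = 2^m b`, `a^2 + b^2 = 2 y` (stably) imply `a^k = b^k` stably for all `k` divisible by a
suitable power of two. -/

namespace Vale.Agent.P268.H294

universe u

variable {S : Type u} [CommSemiring S]

/-- stable equality -/
def St (a b : S) : Prop := ∃ t, a + t = b + t

theorem St.refl (a : S) : St a a := ⟨0, rfl⟩

theorem St.symm {a b : S} (h : St a b) : St b a := by
  obtain ⟨t, ht⟩ := h; exact ⟨t, ht.symm⟩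

theorem St.trans {a b c : S} (h : St a b) (h' : St b c) : St a c := by
  obtain ⟨t, ht⟩ := h; obtain ⟨t', ht'⟩ := h'
  refine ⟨t + t', ?_⟩
  calc a + (t + t') = (a + t) + t' := by rw [add_assoc]
    _ = (b + t') + t := by rw [ht, add_right_comm]
    _ = (c + t') + t := by rw [ht']
    _ = c + (t + t') := by rw [add_right_comm, add_assoc]

theorem St.add {a b c d : S} (h : St a b) (h' : St c d) : St (a + c) (b + d) := by
  obtain ⟨t, ht⟩ := h; obtain ⟨t', ht'⟩ := h'
  refine ⟨t + t', ?_⟩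
  calc a + c + (t + t') = (a + t) + (c + t') := by ac_rfl
    _ = (b + t) + (d + t') := by rw [ht, ht']
    _ = b + d + (t + t') := by ac_rfl

theorem St.mul_right {a b : S} (h : St a b) (c : S) : St (a * c) (b * c) := by
  obtain ⟨t, ht⟩ := h
  exact ⟨t * c, by rw [← add_mul, ht, add_mul]⟩

theorem St.mul {a b c d : S} (h : St a b) (h' : St c d) : St (a * c) (b * d) := by
  refine (h.mul_right c).trans ?_
  rw [mul_comm b c, mul_comm b d]
  exact h'.mul_right b

theorem St.add_cancel {a b c : S} (h : St (a + c) (b + c)) : St a b := by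
  obtain ⟨t, ht⟩ := h
  exact ⟨c + t, by rw [← add_assoc, ht, add_assoc]⟩

/-- the relation on pairs -/
def grSetoid (S : Type u) [CommSemiring S] : Setoid (S × S) where
  r p q := St (p.1 + q.2) (q.1 + p.2)
  iseqv := by
    refine ⟨fun p => St.refl _, fun h => h.symm, ?_⟩
    intro p q r h h'
    have h1 := h.add h'
    refine St.add_cancel (c := q.1 + q.2) ?_
    have e1 : p.1 + q.2 + (q.1 + r.2) = p.1 + r.2 + (q.1 + q.2) := by ac_rfl
    have e2 : q.1 + p.2 + (r.1 + q.2) = r.1 + p.2 + (q.1 + q.2) := by ac_rfl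
    rw [e1, e2] at h1
    exact h1

/-- Grothendieck ring -/
def Gr (S : Type u) [CommSemiring S] : Type u := Quotient (grSetoid S)

namespace Gr

def mk (p : S × S) : Gr S := Quotient.mk (grSetoid S) p

theorem mk_eq {p q : S × S} : mk p = mk q ↔ St (p.1 + q.2) (q.1 + p.2) :=
  ⟨fun h => Quotient.exact h, fun h => Quotient.sound h⟩

instance : Zero (Gr S) := ⟨mk (0, 0)⟩
instance : One (Gr S) := ⟨mk (1, 0)⟩
instance : Add (Gr S) := ⟨Quotient.map₂ (fun p q => (p.1 + q.1, p.2 + q.2)) (by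
  intro p p' h q q' h'
  have h1 := St.add h h'
  show St (p.1 + q.1 + (p'.2 + q'.2)) (p'.1 + q'.1 + (p.2 + q.2))
  have e1 : p.1 + p'.2 + (q.1 + q'.2) = p.1 + q.1 + (p'.2 + q'.2) := by ac_rfl
  have e2 : p'.1 + p.2 + (q'.1 + q.2) = p'.1 + q'.1 + (p.2 + q.2) := by ac_rfl
  rw [e1, e2] at h1
  exact h1)⟩
instance : Neg (Gr S) := ⟨Quotient.map (fun p => (p.2, p.1)) (by
  intro p p' h
  have h1 := St.symm h
  show St (p.2 + p'.1) (p'.2 + p.1)
  rw [add_comm p.2, add_comm p'.2]
  exact h1)⟩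
instance : Mul (Gr S) := ⟨Quotient.map₂
  (fun p q => (p.1 * q.1 + p.2 * q.2, p.1 * q.2 + p.2 * q.1)) (by
  intro p p' h q q' h'
  show St (p.1 * q.1 + p.2 * q.2 + (p'.1 * q'.2 + p'.2 * q'.1))
    (p'.1 * q'.1 + p'.2 * q'.2 + (p.1 * q.2 + p.2 * q.1))
  have h1 : St (p.1 * q.1 + p.2 * q.2 + (p'.1 * q.2 + p'.2 * q.1))
      (p'.1 * q.1 + p'.2 * q.2 + (p.1 * q.2 + p.2 * q.1)) := by
    have a1 := St.mul_right h q.1
    have a2 := (St.mul_right h q.2).symm
    have := a1.add a2
    have e1 : (p.1 + p'.2) * q.1 + (p'.1 + p.2) * q.2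
        = p.1 * q.1 + p.2 * q.2 + (p'.1 * q.2 + p'.2 * q.1) := by ring
    have e2 : (p'.1 + p.2) * q.1 + (p.1 + p'.2) * q.2
        = p'.1 * q.1 + p'.2 * q.2 + (p.1 * q.2 + p.2 * q.1) := by ring
    rw [e1, e2] at this
    exact this
  have h2 : St (p'.1 * q.1 + p'.2 * q.2 + (p'.1 * q'.2 + p'.2 * q'.1))
      (p'.1 * q'.1 + p'.2 * q'.2 + (p'.1 * q.2 + p'.2 * q.1)) := by
    have a1 := St.mul_right h' p'.1
    have a2 := (St.mul_right h' p'.2).symm
    have := a1.add a2
    have e1 : (q.1 + q'.2) * p'.1 + (q'.1 + q.2) * p'.2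
        = p'.1 * q.1 + p'.2 * q.2 + (p'.1 * q'.2 + p'.2 * q'.1) := by ring
    have e2 : (q'.1 + q.2) * p'.1 + (q.1 + q'.2) * p'.2
        = p'.1 * q'.1 + p'.2 * q'.2 + (p'.1 * q.2 + p'.2 * q.1) := by ring
    rw [e1, e2] at this
    exact this
  have h3 := h1.add h2
  refine St.add_cancel (c := (p'.1 * q.2 + p'.2 * q.1) + (p'.1 * q.1 + p'.2 * q.2)) ?_
  have e1 : p.1 * q.1 + p.2 * q.2 + (p'.1 * q.2 + p'.2 * q.1)
      + (p'.1 * q.1 + p'.2 * q.2 + (p'.1 * q'.2 + p'.2 * q'.1))
      = p.1 * q.1 + p.2 * q.2 + (p'.1 * q'.2 + p'.2 * q'.1)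
      + ((p'.1 * q.2 + p'.2 * q.1) + (p'.1 * q.1 + p'.2 * q.2)) := by ac_rfl
  have e2 : p'.1 * q.1 + p'.2 * q.2 + (p.1 * q.2 + p.2 * q.1)
      + (p'.1 * q'.1 + p'.2 * q'.2 + (p'.1 * q.2 + p'.2 * q.1))
      = p'.1 * q'.1 + p'.2 * q'.2 + (p.1 * q.2 + p.2 * q.1)
      + ((p'.1 * q.2 + p'.2 * q.1) + (p'.1 * q.1 + p'.2 * q.2)) := by ac_rfl
  rw [e1, e2] at h3
  exact h3)⟩

theorem mk_add (p q : S × S) : mk p + mk q = mk (p.1 + q.1, p.2 + q.2) := rfl
theorem mk_mul (p q : S × S) :
    mk p * mk q = mk (p.1 * q.1 + p.2 * q.2, p.1 * q.2 + p.2 * q.1) := rfl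
theorem mk_neg (p : S × S) : - mk p = mk (p.2, p.1) := rfl
theorem zero_def : (0 : Gr S) = mk (0, 0) := rfl
theorem one_def : (1 : Gr S) = mk (1, 0) := rfl

theorem ind {P : Gr S → Prop} (h : ∀ p, P (mk p)) (x : Gr S) : P x := Quotient.ind h x

instance : CommRing (Gr S) where
  add_assoc := by
    refine ind fun p => ind fun q => ind fun r => ?_
    simp only [mk_add, add_assoc]
  zero_add := by
    refine ind fun p => ?_
    simp only [zero_def, mk_add, zero_add]
  add_zero := by
    refine ind fun p => ?_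
    simp only [zero_def, mk_add, add_zero]
  add_comm := by
    refine ind fun p => ind fun q => ?_
    simp only [mk_add, add_comm]
  nsmul := nsmulRec
  zsmul := zsmulRec
  neg_add_cancel := by
    refine ind fun p => ?_
    rw [mk_neg, mk_add, zero_def, mk_eq]
    simp only [add_zero, zero_add]
    rw [add_comm]
    exact St.refl _
  mul_assoc := by
    refine ind fun p => ind fun q => ind fun r => ?_
    simp only [mk_mul]
    congr 1
    ext <;> simp only <;> ring
  one_mul := by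
    refine ind fun p => ?_
    simp only [one_def, mk_mul]
    congr 1
    ext <;> simp
  mul_one := by
    refine ind fun p => ?_
    simp only [one_def, mk_mul]
    congr 1
    ext <;> simp
  left_distrib := by
    refine ind fun p => ind fun q => ind fun r => ?_
    simp only [mk_mul, mk_add]
    congr 1
    ext <;> simp only <;> ring
  right_distrib := by
    refine ind fun p => ind fun q => ind fun r => ?_
    simp only [mk_mul, mk_add]
    congr 1
    ext <;> simp only <;> ring
  mul_comm := by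
    refine ind fun p => ind fun q => ?_
    simp only [mk_mul]
    congr 1
    ext <;> simp only <;> ring
  zero_mul := by
    refine ind fun p => ?_
    simp only [zero_def, mk_mul]
    congr 1
    ext <;> simp
  mul_zero := by
    refine ind fun p => ?_
    simp only [zero_def, mk_mul]
    congr 1
    ext <;> simp

/-- the canonical map -/
def of (S : Type u) [CommSemiring S] : S →+* Gr S where
  toFun a := mk (a, 0)
  map_one' := rfl
  map_zero' := rfl
  map_add' a b := by simp [mk_add]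
  map_mul' a b := by simp [mk_mul]

theorem of_eq {a b : S} : of S a = of S b ↔ St a b := by
  show mk (a, 0) = mk (b, 0) ↔ _
  rw [mk_eq]
  simp

end Gr

/-- in a commutative ring: `2^m (a-b) = 0`, `a^2 + b^2 = 2 y` imply `a^k = b^k`. -/
theorem pow_eq_of_ring {R : Type u} [CommRing R] {a b y : R} {m : ℕ}
    (h1 : (2 : R) ^ m * (a - b) = 0) (h2 : a ^ 2 + b ^ 2 = 2 * y) :
    ∃ M : ℕ, ∀ k : ℕ, 2 ^ M ∣ k → a ^ k = b ^ k := by
  set x := a - b with hx
  have hx2 : x ^ 2 = 2 * (y - a * b) := by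
    rw [hx]; ring_nf; linear_combination h2
  -- x^(2m+1) = 0
  have hnil : x ^ (2 * m + 1) = 0 := by
    have : x ^ (2 * m + 1) = (2 ^ m * x) * (y - a * b) ^ m := by
      rw [pow_succ, pow_mul, hx2, mul_pow]; ring
    rw [this, h1, zero_mul]
  refine ⟨3 * m + 1, ?_⟩
  -- it suffices to treat k = 2^(3m+1)
  have key : a ^ (2 ^ (3 * m + 1)) = b ^ (2 ^ (3 * m + 1)) := by
    have ha : a = x + b := by rw [hx]; ring
    rw [ha, add_pow]
    rw [Finset.sum_eq_single 0]
    · simp
    · intro j hj hj0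
      by_cases hj2 : 2 * m + 1 ≤ j
      · have : x ^ j = 0 := by
          obtain ⟨c, rfl⟩ := Nat.exists_eq_add_of_le hj2
          rw [pow_add, hnil, zero_mul]
        rw [this]; ring
      · push Not at hj2
        -- 2^m divides the binomial coefficient
        have hdiv : 2 ^ m ∣ (2 ^ (3 * m + 1)).choose j := by
          have hjpos : 0 < j := Nat.pos_of_ne_zero hj0
          have h3 : 2 ^ (3 * m + 1) ∣ j * (2 ^ (3 * m + 1)).choose j := by
            obtain ⟨i, rfl⟩ : ∃ i, j = i + 1 := ⟨j - 1, by omega⟩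
            have hpos : 0 < 2 ^ (3 * m + 1) := by positivity
            obtain ⟨n, hn⟩ : ∃ n, 2 ^ (3 * m + 1) = n + 1 := ⟨2 ^ (3 * m + 1) - 1, by omega⟩
            rw [hn]
            have := Nat.add_one_mul_choose_eq n i
            rw [mul_comm (i + 1), ← this]
            exact dvd_mul_right _ _
          obtain ⟨v, w, hw, hjw⟩ := Nat.exists_eq_two_pow_mul_odd hjpos.ne'
          have hv : v ≤ 2 * m := by
            by_contra hcon
            push Not at hcon
            have h4 : 2 * m < v := hcon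
            have h5 : v < 2 ^ v := Nat.lt_two_pow_self
            have h6 : 2 ^ v ≤ j := by
              rw [hjw]
              exact Nat.le_mul_of_pos_right _ hw.pos
            omega
          rw [hjw, mul_assoc] at h3
          have h7 : 2 ^ (3 * m + 1) = 2 ^ v * 2 ^ (3 * m + 1 - v) := by
            rw [← pow_add]; congr 1; omega
          rw [h7] at h3
          have h8 := Nat.dvd_of_mul_dvd_mul_left (by positivity : 0 < 2 ^ v) h3
          have hcop : Nat.Coprime (2 ^ (3 * m + 1 - v)) w :=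
            Nat.Coprime.pow_left _ (Nat.coprime_two_left.mpr hw)
          have h9 := hcop.dvd_of_dvd_mul_left h8
          rw [← hjw, ← h7] at h9
          exact (pow_dvd_pow 2 (by omega : m ≤ 3 * m + 1 - v)).trans h9
        obtain ⟨q, hq⟩ := hdiv
        obtain ⟨i, rfl⟩ : ∃ i, j = i + 1 := ⟨j - 1, by omega⟩
        rw [hq]
        push_cast
        have : x ^ (i + 1) * b ^ (2 ^ (3 * m + 1) - (i + 1)) * (2 ^ m * (q : R))
            = (2 ^ m * x) * (x ^ i * b ^ (2 ^ (3 * m + 1) - (i + 1)) * q) := by ring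
        rw [this, h1, zero_mul]
    · intro h
      exact absurd (Finset.mem_range.mpr (by positivity)) h
  rintro k ⟨c, rfl⟩
  rw [pow_mul, pow_mul, key]

/-- **Nilpotence trick in a semiring.** -/
theorem pow_st {S : Type u} [CommSemiring S] {a b y : S} {m : ℕ}
    (h1 : St (2 ^ m * a) (2 ^ m * b)) (h2 : St (a ^ 2 + b ^ 2) (2 * y)) :
    ∃ M : ℕ, ∀ k : ℕ, 2 ^ M ∣ k → St (a ^ k) (b ^ k) := by
  have h1' := Gr.of_eq.mpr h1
  have h2' := Gr.of_eq.mpr h2
  simp only [map_mul, map_pow, map_add, map_ofNat] at h1' h2'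
  obtain ⟨M, hM⟩ := pow_eq_of_ring (R := Gr S) (a := Gr.of S a) (b := Gr.of S b)
    (y := Gr.of S y) (m := m) (by rw [mul_sub, h1', sub_self]) h2'
  refine ⟨M, fun k hk => ?_⟩
  have := hM k hk
  rw [← map_pow, ← map_pow] at this
  exact Gr.of_eq.mp this

end Vale.Agent.P268.H294
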