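import Vale.Agent.P268.H294.Form

/-! Elementary relations between classes of square matrices: squares, sums, positive scalars. -/

open Matrix

namespace Vale.Agent.P268.H294

section moves
variable {R : Type} [Field R]
variable {ι : Type} [Fintype ι] [DecidableEq ι]

/-- (L1) squares do not matter -/
theorem cl_sq {L u w : Matrix ι ι R} (hu : uᵀ * L = L * u) (huw : Commute u w)
    (hdet : IsUnit u.det) : cl (L * (u * u * w)) = cl (L * w) := by
  symm
  rw [cl_eq]
  refine ⟨u, u⁻¹, Matrix.mul_nonsing_inv _ hdet, Matrix.nonsing_inv_mul _ hdet, ?_⟩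
  calc uᵀ * (L * w) * u = (uᵀ * L) * (w * u) := by simp only [Matrix.mul_assoc]
    _ = L * u * (u * w) := by rw [hu, huw.eq]
    _ = L * (u * u * w) := by simp only [Matrix.mul_assoc]

/-- (L2) `⟨u⟩ + ⟨v⟩ = ⟨u+v⟩ + ⟨uv(u+v)⟩` -/
theorem cl_add {L u v w : Matrix ι ι R} (hu : uᵀ * L = L * u) (hv : vᵀ * L = L * v)
    (huv : Commute u v) (huw : Commute u w) (hvw : Commute v w)
    (hdet : IsUnit (u + v).det) :
    cl (L * (u * w)) + cl (L * (v * w))
      = cl (L * ((u + v) * w)) + cl (L * (u * v * ((u + v) * w))) := by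
  rw [CL.add_def, CL.add_def, cl_eq]
  have h1 : (u + v) * (u + v)⁻¹ = 1 := Matrix.mul_nonsing_inv _ hdet
  have h2 : (u + v)⁻¹ * (u + v) = 1 := Matrix.nonsing_inv_mul _ hdet
  set s := (u + v)⁻¹ with hs
  have h1' : u * s + v * s = 1 := by rw [← Matrix.add_mul]; exact h1
  have h2' : s * u + s * v = 1 := by rw [← Matrix.mul_add]; exact h2
  have hcu : u * (u + v) = (u + v) * u := by
    rw [Matrix.mul_add, Matrix.add_mul, huv.eq]
  have hcv : v * (u + v) = (u + v) * v := by
    rw [Matrix.mul_add, Matrix.add_mul, huv.eq]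
  have hsu : s * u = u * s := by
    calc s * u = s * u * ((u + v) * s) := by rw [h1, Matrix.mul_one]
      _ = s * (u * (u + v)) * s := by simp only [Matrix.mul_assoc]
      _ = (s * (u + v)) * u * s := by rw [hcu]; simp only [Matrix.mul_assoc]
      _ = u * s := by rw [h2, Matrix.one_mul]
  have hsv : s * v = v * s := by
    calc s * v = s * v * ((u + v) * s) := by rw [h1, Matrix.mul_one]
      _ = s * (v * (u + v)) * s := by simp only [Matrix.mul_assoc]
      _ = (s * (u + v)) * v * s := by rw [hcv]; simp only [Matrix.mul_assoc]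
      _ = v * s := by rw [h2, Matrix.one_mul]
  refine ⟨Matrix.fromBlocks 1 (-v) 1 u, Matrix.fromBlocks (s * u) (s * v) (-s) s, ?_, ?_, ?_⟩
  · rw [Matrix.fromBlocks_multiply, ← Matrix.fromBlocks_one]
    congr 1
    · rw [Matrix.one_mul, neg_mul_neg, ← hsv]; exact h2'
    · rw [Matrix.one_mul, Matrix.neg_mul, hsv, add_neg_cancel]
    · rw [Matrix.one_mul, Matrix.mul_neg, hsu, add_neg_cancel]
    · rw [Matrix.one_mul, ← hsu, add_comm]; exact h2'
  · rw [Matrix.fromBlocks_multiply, ← Matrix.fromBlocks_one]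
    congr 1
    · rw [Matrix.mul_one, Matrix.mul_one]; exact h2'
    · rw [Matrix.mul_neg, Matrix.mul_assoc, Matrix.mul_assoc, huv.eq, neg_add_cancel]
    · rw [Matrix.mul_one, Matrix.mul_one, neg_add_cancel]
    · rw [neg_mul_neg, add_comm]; exact h2'
  · rw [Matrix.fromBlocks_transpose, Matrix.fromBlocks_multiply, Matrix.fromBlocks_multiply]
    congr 1
    · simp only [Matrix.transpose_one, Matrix.one_mul, Matrix.mul_zero, Matrix.mul_one,
        add_zero, zero_add]
      rw [Matrix.add_mul, Matrix.mul_add]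
    · simp only [Matrix.transpose_one, Matrix.one_mul, Matrix.mul_zero,
        add_zero, zero_add]
      have e1 : L * (u * w) * -v = - (L * (u * v * w)) := by
        rw [Matrix.mul_neg]
        congr 1
        simp only [Matrix.mul_assoc]
        rw [hvw.eq]
      have e2 : L * (v * w) * u = L * (u * v * w) := by
        simp only [Matrix.mul_assoc]
        rw [← huw.eq, ← Matrix.mul_assoc v, ← huv.eq]
        simp only [Matrix.mul_assoc]
      rw [e1, e2, neg_add_cancel]
    · simp only [Matrix.mul_zero, Matrix.mul_one, Matrix.transpose_neg,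
        add_zero, zero_add]
      have e1 : -vᵀ * (L * (u * w)) = - (L * (u * v * w)) := by
        rw [Matrix.neg_mul, ← Matrix.mul_assoc, hv]
        congr 1
        simp only [Matrix.mul_assoc]
        rw [← Matrix.mul_assoc v, ← huv.eq, Matrix.mul_assoc]
      have e2 : uᵀ * (L * (v * w)) = L * (u * v * w) := by
        rw [← Matrix.mul_assoc, hu]
        simp only [Matrix.mul_assoc]
      rw [e1, e2, neg_add_cancel]
    · simp only [Matrix.mul_zero, Matrix.transpose_neg, add_zero, zero_add]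
      have e1 : -vᵀ * (L * (u * w)) * -v = L * (u * v * (v * w)) := by
        rw [Matrix.neg_mul, ← Matrix.mul_assoc, hv, neg_mul_neg]
        simp only [Matrix.mul_assoc]
        rw [← hvw.eq, ← Matrix.mul_assoc v, ← huv.eq, Matrix.mul_assoc]
      have e2 : uᵀ * (L * (v * w)) * u = L * (u * v * (u * w)) := by
        rw [← Matrix.mul_assoc, hu]
        simp only [Matrix.mul_assoc]
        rw [← huw.eq]
      rw [e1, e2, ← Matrix.mul_add, ← Matrix.mul_add, ← Matrix.add_mul, add_comm v u]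

end moves

/-! positive scalars -/

section scal

/-- the quaternion matrix -/
def quatM (a b c d : ℚ) : Matrix (Fin 4) (Fin 4) ℚ :=
  !![a, b, c, d; -b, a, -d, c; -c, d, a, -b; -d, -c, b, a]

theorem quatM_mul (a b c d : ℚ) :
    (quatM a b c d)ᵀ * quatM a b c d = (a ^ 2 + b ^ 2 + c ^ 2 + d ^ 2) • 1 := by
  ext i j
  fin_cases i <;> fin_cases j <;>
    simp [quatM, Matrix.mul_apply, Fin.sum_univ_four, Matrix.transpose_apply] <;> ring

theorem quatM_mul' (a b c d : ℚ) :
    quatM a b c d * (quatM a b c d)ᵀ = (a ^ 2 + b ^ 2 + c ^ 2 + d ^ 2) • 1 := by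
  ext i j
  fin_cases i <;> fin_cases j <;>
    simp [quatM, Matrix.mul_apply, Fin.sum_univ_four, Matrix.transpose_apply] <;> ring

theorem rat_four_squares (r : ℚ) (hr : 0 < r) :
    ∃ a b c d : ℚ, a ^ 2 + b ^ 2 + c ^ 2 + d ^ 2 = r := by
  obtain ⟨n, hn⟩ : ∃ n : ℕ, (n : ℤ) = r.num := ⟨r.num.toNat, Int.toNat_of_nonneg
    (Rat.num_nonneg.mpr hr.le)⟩
  obtain ⟨a, b, c, d, h⟩ := Nat.sum_four_squares (n * r.den)
  have hden : (r.den : ℚ) ≠ 0 := by exact_mod_cast r.den_nz
  refine ⟨a / r.den, b / r.den, c / r.den, d / r.den, ?_⟩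
  have hr' : (n : ℚ) / r.den = r := by
    have := Rat.num_div_den r
    rw [← hn] at this
    simpa using this
  have h' : (a : ℚ) ^ 2 + b ^ 2 + c ^ 2 + d ^ 2 = n * r.den := by exact_mod_cast h
  generalize (r.den : ℚ) = D at *
  rw [← hr', div_pow, div_pow, div_pow, div_pow, ← add_div, ← add_div, ← add_div, h']
  field_simp

theorem cl_one_four : cl (1 : Matrix (Fin 4) (Fin 4) ℚ) = 4 := by
  have h4 : (4 : CL ℚ) = 1 + (1 + (1 + (1 + 0))) := by norm_num
  rw [h4, CL.one_def, CL.zero_def, CL.add_def, CL.add_def, CL.add_def, CL.add_def, cl_eq]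
  refine CongM.of_equiv
    ⟨![Sum.inl (), Sum.inr (Sum.inl ()), Sum.inr (Sum.inr (Sum.inl ())),
        Sum.inr (Sum.inr (Sum.inr (Sum.inl ())))],
      Sum.elim (fun _ => 0) (Sum.elim (fun _ => 1) (Sum.elim (fun _ => 2)
        (Sum.elim (fun _ => 3) Empty.elim))), ?_, ?_⟩ _ _ ?_
  · intro i; fin_cases i <;> rfl
  · rintro (i | i | i | i | i)
    · rfl
    · rfl
    · rfl
    · rfl
    · exact i.elim
  · intro i j
    fin_cases i <;> fin_cases j <;> simp

open scoped Kronecker

/-- (L3) positive rational scalars are killed by 4 -/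
theorem four_mul_cl_smul {ι : Type} [Fintype ι] [DecidableEq ι] (A : Matrix ι ι ℚ)
    (r : ℚ) (hr : 0 < r) : 4 * cl (r • A) = 4 * cl A := by
  obtain ⟨a, b, c, d, h⟩ := rat_four_squares r hr
  have h1 : cl ((r • 1 : Matrix (Fin 4) (Fin 4) ℚ)) = 4 := by
    rw [← cl_one_four]
    symm
    rw [cl_eq]
    refine ⟨quatM a b c d, r⁻¹ • (quatM a b c d)ᵀ, ?_, ?_, ?_⟩
    · rw [Matrix.mul_smul, quatM_mul', h, smul_smul, inv_mul_cancel₀ hr.ne', one_smul]
    · rw [Matrix.smul_mul, quatM_mul, h, smul_smul, inv_mul_cancel₀ hr.ne', one_smul]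
    · rw [Matrix.mul_one, quatM_mul, h]
  calc 4 * cl (r • A) = cl (1 : Matrix (Fin 4) (Fin 4) ℚ) * cl (r • A) := by rw [cl_one_four]
    _ = cl ((r • 1 : Matrix (Fin 4) (Fin 4) ℚ)) * cl A := by
        rw [CL.mul_def, CL.mul_def, Matrix.kronecker_smul, Matrix.smul_kronecker]
    _ = 4 * cl A := by rw [h1]

end scal

end Vale.Agent.P268.H294
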