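import Vale.Agent.P268.H294.Moves

/-! A self-adjoint rational matrix close to 1 does not change the class of a form, up to
multiplication by a power of two. -/

open Matrix

namespace Vale.Agent.P268.H294

section near
variable {ι : Type} [Fintype ι] [DecidableEq ι]

/-- the algebra generated by c -/
abbrev KK (c : Matrix ι ι ℚ) : Subalgebra ℚ (Matrix ι ι ℚ) := Algebra.adjoin ℚ {c}

theorem KK_comm {c u v : Matrix ι ι ℚ} (hu : u ∈ KK c) (hv : v ∈ KK c) : Commute u v := by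
  have hK := Algebra.adjoin_singleton_eq_range_aeval ℚ c
  unfold KK at hu hv
  rw [hK] at hu hv
  obtain ⟨p, rfl⟩ := hu
  obtain ⟨q, rfl⟩ := hv
  show (Polynomial.aeval c) p * (Polynomial.aeval c) q
    = (Polynomial.aeval c) q * (Polynomial.aeval c) p
  rw [← map_mul, ← map_mul, mul_comm]

theorem KK_adj {L c : Matrix ι ι ℚ} (hc : cᵀ * L = L * c) {u : Matrix ι ι ℚ}
    (hu : u ∈ KK c) : uᵀ * L = L * u := by
  induction hu using Algebra.adjoin_induction with
  | mem x hx => rw [Set.mem_singleton_iff.mp hx]; exact hc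
  | algebraMap r =>
    rw [Matrix.algebraMap_eq_diagonal, Matrix.diagonal_transpose]
    ext i j
    simp only [Matrix.diagonal_mul, Matrix.mul_diagonal, mul_comm]
    rfl
  | add x y _ _ hx hy =>
    rw [Matrix.transpose_add, Matrix.add_mul, hx, hy, Matrix.mul_add]
  | mul x y hxm hym hx hy =>
    rw [Matrix.transpose_mul, Matrix.mul_assoc, hx, ← Matrix.mul_assoc, hy, Matrix.mul_assoc,
      (KK_comm hym hxm).eq]

/-- `u` acts trivially on classes up to `2^j` -/
def DD (L c : Matrix ι ι ℚ) (j : ℕ) (u : Matrix ι ι ℚ) : Prop :=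
  u ∈ KK c ∧ ∀ w ∈ KK c, (2 : CL ℚ) ^ j * cl (L * (u * w)) = 2 ^ j * cl (L * w)

variable {L c : Matrix ι ι ℚ}

theorem DD.mono {j j' : ℕ} (h : j ≤ j') {u : Matrix ι ι ℚ} (hu : DD L c j u) :
    DD L c j' u := by
  obtain ⟨i, rfl⟩ := Nat.exists_eq_add_of_le h
  refine ⟨hu.1, fun w hw => ?_⟩
  rw [pow_add, mul_comm (2 ^ j), mul_assoc, hu.2 w hw, mul_assoc]

theorem DD.mul {j : ℕ} {u v : Matrix ι ι ℚ} (hu : DD L c j u) (hv : DD L c j v) :
    DD L c j (u * v) := by
  refine ⟨mul_mem hu.1 hv.1, fun w hw => ?_⟩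
  rw [Matrix.mul_assoc, hu.2 _ (mul_mem hv.1 hw), hv.2 w hw]

theorem DD.sq (hc : cᵀ * L = L * c) {u : Matrix ι ι ℚ} (hu : u ∈ KK c) (hd : IsUnit u.det) :
    DD L c 0 (u * u) := by
  refine ⟨mul_mem hu hu, fun w hw => ?_⟩
  rw [cl_sq (KK_adj hc hu) (KK_comm hu hw) hd]

theorem DD.scal {r : ℚ} (hr : 0 < r) : DD L c 2 (r • 1) := by
  refine ⟨Subalgebra.smul_mem _ (one_mem _) r, fun w hw => ?_⟩
  rw [Matrix.smul_mul, Matrix.one_mul, Matrix.mul_smul]
  have : (2 : CL ℚ) ^ 2 = 4 := by norm_num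
  rw [this]
  exact four_mul_cl_smul _ r hr

theorem DD.add (hc : cᵀ * L = L * c) {j : ℕ} {u v : Matrix ι ι ℚ} (hu : DD L c j u)
    (hv : DD L c j v) (hd : IsUnit (u + v).det) : DD L c (j + 1) (u + v) := by
  refine ⟨add_mem hu.1 hv.1, fun w hw => ?_⟩
  have h := cl_add (w := w) (KK_adj hc hu.1) (KK_adj hc hv.1) (KK_comm hu.1 hv.1)
    (KK_comm hu.1 hw) (KK_comm hv.1 hw) hd
  have h' := congrArg (fun x => (2 : CL ℚ) ^ j * x) h
  simp only [mul_add] at h'
  rw [hu.2 w hw, hv.2 w hw, (hu.mul hv).2 _ (mul_mem (add_mem hu.1 hv.1) hw)] at h'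
  rw [pow_succ, mul_comm ((2 : CL ℚ) ^ j) 2, mul_assoc, mul_assoc, two_mul, two_mul, ← h']

section norm
attribute [local instance] Matrix.linftyOpNormedRing Matrix.linftyOpNormedAlgebra
  Matrix.linftyOpNormedAddCommGroup Matrix.linftyOpNormedSpace

/-- a convex cone of invertible matrices around the positive scalars -/
def Cn (u : Matrix ι ι ℚ) : Prop := ∃ R : ℚ, 0 < R ∧ ‖u - R • 1‖ ≤ (R : ℝ) / 2

theorem norm_rat_smul (r : ℚ) (u : Matrix ι ι ℚ) : ‖r • u‖ = |(r : ℝ)| * ‖u‖ := by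
  rw [norm_smul, ← Rat.norm_cast_real, Real.norm_eq_abs]

theorem Cn.add {u v : Matrix ι ι ℚ} (hu : Cn u) (hv : Cn v) : Cn (u + v) := by
  obtain ⟨R, hR, h⟩ := hu
  obtain ⟨R', hR', h'⟩ := hv
  refine ⟨R + R', by positivity, ?_⟩
  have : u + v - (R + R') • (1 : Matrix ι ι ℚ) = (u - R • 1) + (v - R' • 1) := by
    rw [add_smul]; abel
  rw [this]
  refine (norm_add_le _ _).trans ?_
  push_cast
  linarith

theorem Cn.det {u : Matrix ι ι ℚ} (hu : Cn u) : IsUnit u.det := by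
  obtain ⟨R, hR, h⟩ := hu
  rw [isUnit_iff_ne_zero]
  intro h0
  obtain ⟨x, hx, hux⟩ := Matrix.exists_mulVec_eq_zero_iff.mpr h0
  have h1 : (u - R • 1) *ᵥ x = - (R • x) := by
    rw [Matrix.sub_mulVec, hux, Matrix.smul_mulVec, Matrix.one_mulVec, zero_sub]
  have h2 := Matrix.linfty_opNorm_mulVec (u - R • 1) x
  rw [h1, norm_neg, norm_smul] at h2
  have h3 : 0 < ‖x‖ := norm_pos_iff.mpr hx
  have h4 : ‖(R : ℚ)‖ = R := by
    rw [← Rat.norm_cast_real, Real.norm_eq_abs, abs_of_pos]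
    exact_mod_cast hR
  rw [h4] at h2
  have h5 : (0 : ℝ) < R := by exact_mod_cast hR
  nlinarith

theorem Cn.one_add {e : Matrix ι ι ℚ} (he : ‖e‖ ≤ 1 / 2) : Cn (1 + e) := by
  refine ⟨1, one_pos, ?_⟩
  rw [one_smul, add_sub_cancel_left]
  simpa using he

/-- squares of elements near 1, scaled -/
theorem Cn.smul_sq {e : Matrix ι ι ℚ} (he : ‖e‖ ≤ 1 / 8) {r : ℚ} (hr : 0 < r) :
    Cn (r • ((1 + e) * (1 + e))) := by
  refine ⟨r, hr, ?_⟩
  have : r • ((1 + e) * (1 + e)) - r • (1 : Matrix ι ι ℚ) = r • ((e + e) + e * e) := by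
    rw [← smul_sub]
    congr 1
    noncomm_ring
  rw [this, norm_rat_smul]
  have h1 : ‖(e + e) + e * e‖ ≤ 1 / 2 := by
    refine (norm_add_le _ _).trans ?_
    have h2 := norm_add_le e e
    have h3 := norm_mul_le e e
    have h4 : ‖e‖ * ‖e‖ ≤ 1 / 8 * (1 / 8) :=
      mul_le_mul he he (norm_nonneg _) (by norm_num)
    linarith
  have h5 : (0 : ℝ) < r := by exact_mod_cast hr
  rw [abs_of_pos h5]
  nlinarith

/-- every linear functional on matrices is bounded -/
theorem functional_bound (φ : Matrix ι ι ℚ →ₗ[ℚ] ℚ) :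
    ∃ C : ℝ, 0 ≤ C ∧ ∀ M : Matrix ι ι ℚ, |((φ M : ℚ) : ℝ)| ≤ C * ‖M‖ := by
  refine ⟨∑ i, ∑ j, |((φ (Matrix.single i j 1) : ℚ) : ℝ)|,
    Finset.sum_nonneg fun _ _ => Finset.sum_nonneg fun _ _ => abs_nonneg _, fun M => ?_⟩
  have hentry : ∀ i j, |((M i j : ℚ) : ℝ)| ≤ ‖M‖ := by
    intro i j
    have h1 := Matrix.linfty_opNorm_mulVec M (Pi.single j 1)
    have h2 : ‖(Pi.single j 1 : ι → ℚ)‖ ≤ 1 := by
      rw [pi_norm_le_iff_of_nonneg zero_le_one]
      intro k
      by_cases hk : k = j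
      · subst hk; simp
      · simp [hk]
    have h3 : ‖(M *ᵥ Pi.single j 1) i‖ ≤ ‖M *ᵥ Pi.single j 1‖ := norm_le_pi_norm _ i
    have h4 : (M *ᵥ Pi.single j 1) i = M i j := by simp
    rw [h4, ← Rat.norm_cast_real, Real.norm_eq_abs] at h3
    have h5 := norm_nonneg M
    nlinarith
  have hM : φ M = ∑ i, ∑ j, M i j * φ (Matrix.single i j 1) := by
    conv_lhs => rw [Matrix.matrix_eq_sum_single M]
    rw [map_sum]
    refine Finset.sum_congr rfl fun i _ => ?_
    rw [map_sum]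
    refine Finset.sum_congr rfl fun j _ => ?_
    have : Matrix.single i j (M i j) = M i j • Matrix.single i j (1 : ℚ) := by
      rw [Matrix.smul_single, smul_eq_mul, mul_one]
    rw [this, map_smul, smul_eq_mul]
  rw [hM]
  push_cast
  rw [Finset.sum_mul]
  refine (Finset.abs_sum_le_sum_abs _ _).trans (Finset.sum_le_sum fun i _ => ?_)
  rw [Finset.sum_mul]
  refine (Finset.abs_sum_le_sum_abs _ _).trans (Finset.sum_le_sum fun j _ => ?_)
  rw [abs_mul, mul_comm]
  exact mul_le_mul_of_nonneg_left (hentry i j) (abs_nonneg _)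

/-- tiny perturbations of 1 inside `K` are sums of positive multiples of squares -/
theorem tiny [Nonempty ι] (hc : cᵀ * L = L * c) :
    ∃ δ : ℝ, 0 < δ ∧ ∀ e ∈ KK c, ‖e‖ ≤ δ → ∃ j, DD L c j (1 + e) := by
  classical
  let K : Submodule ℚ (Matrix ι ι ℚ) := Subalgebra.toSubmodule (KK c)
  let b := Module.finBasis ℚ K
  set n := Module.finrank ℚ K with hn
  have hone : (1 : Matrix ι ι ℚ) ∈ K := one_mem (KK c)
  have hn0 : 0 < n := by
    rw [hn, Module.finrank_pos_iff_exists_ne_zero]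
    refine ⟨⟨1, hone⟩, ?_⟩
    intro h
    have := congrArg Subtype.val h
    exact one_ne_zero this
  have hφ : ∀ i, ∃ φ : Matrix ι ι ℚ →ₗ[ℚ] ℚ, φ ∘ₗ K.subtype = b.coord i :=
    fun i => LinearMap.exists_extend (b.coord i)
  choose φ hφ using hφ
  have hrep : ∀ x ∈ K, x = ∑ i, φ i x • (b i : Matrix ι ι ℚ) := by
    intro x hx
    have h1 := b.sum_repr ⟨x, hx⟩
    have h2 := congrArg K.subtype h1
    rw [map_sum] at h2
    simp only [Submodule.subtype_apply, map_smul] at h2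
    calc x = ∑ i, (b.repr ⟨x, hx⟩) i • (b i : Matrix ι ι ℚ) := h2.symm
      _ = _ := by
        refine Finset.sum_congr rfl fun i _ => ?_
        congr 1
        have h3 := congrArg (fun f => f ⟨x, hx⟩) (hφ i)
        simp only [LinearMap.coe_comp, Submodule.coe_subtype, Function.comp_apply,
          Module.Basis.coord_apply] at h3
        exact h3.symm
  have hbK : ∀ i, (b i : Matrix ι ι ℚ) ∈ KK c := fun i => (b i).2
  set g : Matrix ι ι ℚ := ∑ i, (b i : Matrix ι ι ℚ) * (b i : Matrix ι ι ℚ) with hg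
  have hgK : g ∈ KK c := sum_mem fun i _ => mul_mem (hbK i) (hbK i)
  choose C hC0 hC using fun i => functional_bound (φ i)
  -- constants
  obtain ⟨B, hB0, hB⟩ : ∃ B : ℚ, 0 < B ∧ ∀ i, ‖(b i : Matrix ι ι ℚ)‖ ≤ B
      ∧ |((φ i g : ℚ) : ℝ)| ≤ B ∧ C i ≤ B := by
    obtain ⟨B, hB⟩ := exists_rat_gt (∑ i, (‖(b i : Matrix ι ι ℚ)‖ + |((φ i g : ℚ) : ℝ)| + C i))
    have hnn : ∀ i, 0 ≤ ‖(b i : Matrix ι ι ℚ)‖ + |((φ i g : ℚ) : ℝ)| + C i := by
      intro i
      have := hC0 i
      positivity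
    have hle : ∀ i, ‖(b i : Matrix ι ι ℚ)‖ + |((φ i g : ℚ) : ℝ)| + C i ≤ B := by
      intro i
      refine le_trans ?_ hB.le
      exact Finset.single_le_sum
        (f := fun i => ‖(b i : Matrix ι ι ℚ)‖ + |((φ i g : ℚ) : ℝ)| + C i)
        (fun i _ => hnn i) (Finset.mem_univ i)
    have hBpos : (0 : ℝ) < B := lt_of_le_of_lt (Finset.sum_nonneg fun i _ => hnn i) hB
    refine ⟨B, by exact_mod_cast hBpos, fun i => ?_⟩
    have h1 := hle i
    have h2 := hC0 i
    have h3 := norm_nonneg (b i : Matrix ι ι ℚ)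
    have h4 := abs_nonneg (((φ i g : ℚ) : ℝ))
    exact ⟨by linarith, by linarith, by linarith⟩
  -- t
  obtain ⟨t, ht0, htB⟩ : ∃ t : ℚ, 0 < t ∧ t * B < 1 / 8 := by
    refine ⟨1 / (16 * B), by positivity, ?_⟩
    field_simp
    norm_num
  have hnQ : (0 : ℚ) < n := by exact_mod_cast hn0
  have hnR : (0 : ℝ) < n := by exact_mod_cast hn0
  have hBR : (0 : ℝ) < B := by exact_mod_cast hB0
  have htR : (0 : ℝ) < t := by exact_mod_cast ht0
  have htBR : (t : ℝ) * B < 1 / 8 := by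
    have : ((t * B : ℚ) : ℝ) < ((1 / 8 : ℚ) : ℝ) := by exact_mod_cast htB
    push_cast at this
    exact this
  refine ⟨t / n / (2 * B), by positivity, fun e heK he => ?_⟩
  set y : Fin n → ℚ := fun i => (φ i e - t ^ 2 / n * φ i g) / (4 * t) with hy
  have hyb : ∀ i, |((y i : ℚ) : ℝ)| < 1 / (2 * n) := by
    intro i
    have h1 : |((φ i e : ℚ) : ℝ)| ≤ t / n / 2 := by
      refine (hC i e).trans ?_
      have h2 : C i * ‖e‖ ≤ B * (t / n / (2 * B)) :=
        mul_le_mul (hB i).2.2 he (norm_nonneg _) hBR.le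
      refine h2.trans (le_of_eq ?_)
      field_simp
    have h2 : |((t ^ 2 / n * φ i g : ℚ) : ℝ)| < t / n := by
      push_cast
      rw [abs_mul, abs_of_pos (by positivity : (0 : ℝ) < (t : ℝ) ^ 2 / n)]
      have h3 : (t : ℝ) ^ 2 / n * |((φ i g : ℚ) : ℝ)| ≤ (t : ℝ) ^ 2 / n * B :=
        mul_le_mul_of_nonneg_left (hB i).2.1 (by positivity)
      refine lt_of_le_of_lt h3 ?_
      have h4 : (t : ℝ) ^ 2 / n * B = (t * B) * (t / n) := by ring
      rw [h4]
      have h5 : (0 : ℝ) < t / n := by positivity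
      nlinarith
    have h3 : ((y i : ℚ) : ℝ) = (((φ i e : ℚ) : ℝ) - ((t ^ 2 / n * φ i g : ℚ) : ℝ)) / (4 * t) := by
      simp only [hy]
      push_cast
      ring
    rw [h3, abs_div, abs_of_pos (by positivity : (0 : ℝ) < 4 * t), div_lt_iff₀ (by positivity)]
    have h4 := abs_sub (((φ i e : ℚ) : ℝ)) ((t ^ 2 / n * φ i g : ℚ) : ℝ)
    have h5 : 1 / (2 * (n : ℝ)) * (4 * t) = 2 * (t / n) := by field_simp; ring
    rw [h5]
    have h6 : (0 : ℝ) < t / n := by positivity
    linarith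
  set s : Fin n → Matrix ι ι ℚ := fun i =>
    (1 / (2 * n) + y i) • ((1 + t • (b i : Matrix ι ι ℚ)) * (1 + t • (b i : Matrix ι ι ℚ)))
    + (1 / (2 * n) - y i) • ((1 + (-t) • (b i : Matrix ι ι ℚ)) *
        (1 + (-t) • (b i : Matrix ι ι ℚ))) with hs
  have hsum : 1 + e = ∑ i, s i := by
    have h1 : ∀ i, s i = (1 / n : ℚ) • (1 : Matrix ι ι ℚ)
        + (t ^ 2 / n : ℚ) • ((b i : Matrix ι ι ℚ) * (b i : Matrix ι ι ℚ))
        + (φ i e • (b i : Matrix ι ι ℚ) - (t ^ 2 / n : ℚ) • (φ i g • (b i : Matrix ι ι ℚ))) := by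
      intro i
      have h2 : (4 * t) * y i = φ i e - t ^ 2 / n * φ i g := by
        simp only [hy]
        field_simp
      have h3 : ∀ (p q : ℚ) (M : Matrix ι ι ℚ),
          p • ((1 + t • M) * (1 + t • M)) + q • ((1 + (-t) • M) * (1 + (-t) • M))
          = (p + q) • (1 : Matrix ι ι ℚ) + ((p + q) * t ^ 2) • (M * M)
            + ((p - q) * (2 * t)) • M := by
        intro p q M
        simp only [Matrix.mul_add, Matrix.add_mul, Matrix.one_mul, Matrix.mul_one,
          Matrix.smul_mul, Matrix.mul_smul, smul_add, smul_smul, add_smul, sub_smul, sub_mul,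
          neg_mul, mul_neg, neg_smul]
        module
      simp only [hs]
      rw [h3, smul_smul, ← sub_smul, ← h2]
      congr 2
      · congr 1
        · field_simp; ring
      · congr 1; field_simp; ring
      · ring
    rw [Finset.sum_congr rfl fun i _ => h1 i, Finset.sum_add_distrib, Finset.sum_add_distrib,
      Finset.sum_sub_distrib, ← Finset.smul_sum, ← Finset.smul_sum, ← Finset.smul_sum,
      ← hrep e heK, ← hrep g hgK, ← hg, Finset.sum_const, Finset.card_univ, Fintype.card_fin]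
    rw [← Nat.cast_smul_eq_nsmul ℚ, smul_smul]
    have h4 : (n : ℚ) * (1 / n) = 1 := by field_simp
    have h4' : (1 / n : ℚ) * n = 1 := by field_simp
    first
      | rw [h4]
      | rw [h4']
    rw [one_smul]
    abel
  -- the predicate
  let G : Matrix ι ι ℚ → Prop := fun u => (∃ j, DD L c j u) ∧ Cn u
  have hGadd : ∀ u v, G u → G v → G (u + v) := by
    rintro u v ⟨⟨j, hj⟩, hcu⟩ ⟨⟨j', hj'⟩, hcv⟩
    exact ⟨⟨max j j' + 1, DD.add hc (hj.mono (le_max_left _ _)) (hj'.mono (le_max_right _ _))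
      (hcu.add hcv).det⟩, hcu.add hcv⟩
  have hGterm : ∀ (r : ℚ) (τ : ℚ) (i : Fin n), 0 < r → |(τ : ℝ)| = t →
      G (r • ((1 + τ • (b i : Matrix ι ι ℚ)) * (1 + τ • (b i : Matrix ι ι ℚ)))) := by
    intro r τ i hr hτ
    have hnorm : ‖τ • (b i : Matrix ι ι ℚ)‖ ≤ 1 / 8 := by
      rw [norm_rat_smul, hτ]
      have := mul_le_mul_of_nonneg_left (hB i).1 htR.le
      linarith
    refine ⟨⟨2, ?_⟩, Cn.smul_sq hnorm hr⟩
    have hmem : 1 + τ • (b i : Matrix ι ι ℚ) ∈ KK c :=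
      add_mem (one_mem _) (Subalgebra.smul_mem _ (hbK i) τ)
    have h1 := (DD.scal (L := L) (c := c) hr).mul
      ((DD.sq hc hmem (Cn.one_add (hnorm.trans (by norm_num))).det).mono (Nat.zero_le 2))
    rw [Matrix.smul_mul, Matrix.one_mul] at h1
    exact h1
  have hGs : ∀ i, G (s i) := by
    intro i
    have h1 := abs_lt.mp (hyb i)
    have h2 : (0 : ℚ) < 1 / (2 * n) + y i := by
      have : (0 : ℝ) < ((1 / (2 * n) + y i : ℚ) : ℝ) := by push_cast; linarith
      exact_mod_cast this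
    have h3 : (0 : ℚ) < 1 / (2 * n) - y i := by
      have : (0 : ℝ) < ((1 / (2 * n) - y i : ℚ) : ℝ) := by push_cast; linarith
      exact_mod_cast this
    refine hGadd _ _ (hGterm _ t i h2 (abs_of_pos htR)) (hGterm _ (-t) i h3 ?_)
    push_cast
    rw [abs_neg, abs_of_pos htR]
  have hne : (Finset.univ : Finset (Fin n)).Nonempty := ⟨⟨0, hn0⟩, Finset.mem_univ _⟩
  have hfin : G (∑ i, s i) :=
    Finset.sum_induction_nonempty s G hGadd hne fun i _ => hGs i
  rw [hsum]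
  exact hfin.1

/-- Newton iteration: `c` is a square up to an arbitrarily small error -/
theorem newton {δ : ℝ} (hδ : 0 < δ) (hc1 : ‖c - 1‖ ≤ 1 / 2) :
    ∃ v ∈ KK c, IsUnit v.det ∧ ‖c * (v * v) - 1‖ ≤ δ := by
  have hcK : c ∈ KK c := Algebra.subset_adjoin rfl
  have key : ∀ n : ℕ, ∃ v ∈ KK c, IsUnit v.det ∧ ‖c * (v * v) - 1‖ ≤ (1 / 2) ^ (n + 1) := by
    intro n
    induction n with
    | zero => exact ⟨1, one_mem _, by simp, by simpa using hc1⟩
    | succ n ih =>
      obtain ⟨v, hv, hvd, he⟩ := ih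
      set e := c * (v * v) - 1 with hedef
      have heK : e ∈ KK c := sub_mem (mul_mem hcK (mul_mem hv hv)) (one_mem _)
      have he12 : ‖e‖ ≤ 1 / 2 := by
        refine he.trans ?_
        rw [pow_succ]
        have : ((1 : ℝ) / 2) ^ n ≤ 1 := pow_le_one₀ (by norm_num) (by norm_num)
        linarith
      have hhalf : ‖(-(1 / 2) : ℚ) • e‖ ≤ 1 / 2 := by
        rw [norm_rat_smul]
        push_cast
        rw [abs_neg, abs_of_pos (by norm_num)]
        linarith [norm_nonneg e]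
      set f := 1 + (-(1 / 2) : ℚ) • e with hf
      have hfK : f ∈ KK c := add_mem (one_mem _) (Subalgebra.smul_mem _ heK _)
      refine ⟨v * f, mul_mem hv hfK, ?_, ?_⟩
      · rw [Matrix.det_mul]
        exact hvd.mul (Cn.one_add hhalf).det
      · have hcomm : Commute f v := KK_comm hfK hv
        have e1 : c * (v * f * (v * f)) = (c * (v * v)) * (f * f) := by
          have : v * f * (v * f) = v * v * (f * f) := by
            calc v * f * (v * f) = v * (f * v) * f := by simp only [Matrix.mul_assoc]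
              _ = v * (v * f) * f := by rw [hcomm.eq]
              _ = v * v * (f * f) := by simp only [Matrix.mul_assoc]
          rw [this]
          simp only [Matrix.mul_assoc]
        have e2 : c * (v * v) = 1 + e := by rw [hedef]; abel
        have e3 : c * (v * f * (v * f)) - 1
            = (-(3 / 4) : ℚ) • (e * e) + (1 / 4 : ℚ) • (e * (e * e)) := by
          rw [e1, e2, hf]
          simp only [Matrix.mul_add, Matrix.add_mul, Matrix.one_mul, Matrix.mul_one,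
            Matrix.smul_mul, Matrix.mul_smul, smul_add, smul_smul]
          module
        rw [e3]
        refine (norm_add_le _ _).trans ?_
        rw [norm_rat_smul, norm_rat_smul]
        have h1 := norm_mul_le e e
        have h2 := norm_mul_le e (e * e)
        have h3 := norm_nonneg e
        have h4 : ‖e‖ * ‖e‖ ≤ ‖e‖ * (1 / 2) := mul_le_mul_of_nonneg_left he12 h3
        have h5 : ‖e‖ * ‖e * e‖ ≤ 1 / 2 * ‖e * e‖ :=
          mul_le_mul_of_nonneg_right he12 (norm_nonneg _)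
        have h6 : |((-(3 / 4) : ℚ) : ℝ)| = 3 / 4 := by
          push_cast; rw [abs_neg, abs_of_pos (by norm_num)]
        have h7 : |((1 / 4 : ℚ) : ℝ)| = 1 / 4 := by
          push_cast; rw [abs_of_pos (by norm_num)]
        rw [h6, h7, pow_succ]
        linarith
  obtain ⟨n, hn⟩ := exists_pow_lt_of_lt_one hδ (by norm_num : (1 / 2 : ℝ) < 1)
  obtain ⟨v, hv, hvd, he⟩ := key n
  refine ⟨v, hv, hvd, he.trans ?_⟩
  refine le_trans ?_ hn.le
  exact pow_le_pow_of_le_one (by norm_num) (by norm_num) (Nat.le_succ n)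

/-- **(b)** -/
theorem near_one (hc : cᵀ * L = L * c) (hc1 : ‖c - 1‖ ≤ 1 / 2) :
    ∃ m : ℕ, (2 : CL ℚ) ^ m * cl (L * c) = 2 ^ m * cl L := by
  rcases isEmpty_or_nonempty ι with hι | hι
  · refine ⟨0, ?_⟩
    have : L * c = L := Subsingleton.elim _ _
    rw [this]
  obtain ⟨δ, hδ, h⟩ := tiny (L := L) (c := c) hc
  obtain ⟨v, hv, hvd, he⟩ := newton (c := c) hδ hc1
  have hcK : c ∈ KK c := Algebra.subset_adjoin rfl
  obtain ⟨j, hj⟩ := h (c * (v * v) - 1)
    (sub_mem (mul_mem hcK (mul_mem hv hv)) (one_mem _)) he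
  rw [add_sub_cancel] at hj
  refine ⟨j, ?_⟩
  have h1 := hj.2 1 (one_mem _)
  have h2 : c * (v * v) * 1 = v * v * c := by
    rw [Matrix.mul_one, (KK_comm hcK (mul_mem hv hv)).eq]
  rw [h2, Matrix.mul_one, cl_sq (KK_adj hc hv) (KK_comm hv hcK) hvd] at h1
  exact h1

end norm
end near
end Vale.Agent.P268.H294
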