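import Vale.Agent.P268.H294.Near

/-! The ψ²-lemma: `⟨L⟩² + ⟨Lc⟩² = 2 Y`. -/

open Matrix
open scoped Kronecker

namespace Vale.Agent.P268.H294

section abs
/- abstract part -/
variable {κ : Type} [Fintype κ] [DecidableEq κ]

theorem comm_inv {s x : Matrix κ κ ℚ} (hs : IsUnit s.det) (h : s * x = x * s) :
    s⁻¹ * x = x * s⁻¹ := by
  calc s⁻¹ * x = s⁻¹ * x * (s * s⁻¹) := by rw [Matrix.mul_nonsing_inv _ hs, Matrix.mul_one]
    _ = s⁻¹ * (x * s) * s⁻¹ := by simp only [Matrix.mul_assoc]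
    _ = (s⁻¹ * s) * x * s⁻¹ := by rw [← h]; simp only [Matrix.mul_assoc]
    _ = x * s⁻¹ := by rw [Matrix.nonsing_inv_mul _ hs, Matrix.one_mul]

/-- splitting of `Λ ⊕ ΛN` along a pair of complementary idempotents -/
theorem psi_diag {Λ p q N : Matrix κ κ ℚ} (hpp : p * p = p) (hqq : q * q = q)
    (hpq : p * q = 0) (hqp : q * p = 0) (hpq1 : p + q = 1) (hpΛ : pᵀ * Λ = Λ * p)
    (hqΛ : qᵀ * Λ = Λ * q) (hpN : p * N = N * p) (hqN : q * N = N * q) :
    cl Λ + cl (Λ * N) = cl (Λ * (p + N * q)) + cl (Λ * (N * p + q)) := by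
  rw [CL.add_def, CL.add_def, cl_eq]
  refine ⟨Matrix.fromBlocks p q q p, Matrix.fromBlocks p q q p, ?_, ?_, ?_⟩
  · rw [Matrix.fromBlocks_multiply, ← Matrix.fromBlocks_one, hpp, hqq, hpq, hqp, hpq1,
      add_comm q p, hpq1, add_zero]
  · rw [Matrix.fromBlocks_multiply, ← Matrix.fromBlocks_one, hpp, hqq, hpq, hqp, hpq1,
      add_comm q p, hpq1, add_zero]
  · rw [Matrix.fromBlocks_transpose, Matrix.fromBlocks_multiply, Matrix.fromBlocks_multiply]
    simp only [Matrix.mul_zero, add_zero, zero_add]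
    have e1 : pᵀ * Λ * p = Λ * p := by rw [hpΛ, Matrix.mul_assoc, hpp]
    have e2 : qᵀ * (Λ * N) * q = Λ * (N * q) := by
      rw [← Matrix.mul_assoc, hqΛ, Matrix.mul_assoc Λ q N, hqN, Matrix.mul_assoc,
        Matrix.mul_assoc, hqq]
    have e3 : pᵀ * Λ * q = 0 := by rw [hpΛ, Matrix.mul_assoc, hpq, Matrix.mul_zero]
    have e4 : qᵀ * (Λ * N) * p = 0 := by
      rw [← Matrix.mul_assoc, hqΛ, Matrix.mul_assoc Λ q N, hqN, Matrix.mul_assoc,
        Matrix.mul_assoc, hqp, Matrix.mul_zero, Matrix.mul_zero]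
    have e5 : qᵀ * Λ * p = 0 := by rw [hqΛ, Matrix.mul_assoc, hqp, Matrix.mul_zero]
    have e6 : pᵀ * (Λ * N) * q = 0 := by
      rw [← Matrix.mul_assoc, hpΛ, Matrix.mul_assoc Λ p N, hpN, Matrix.mul_assoc,
        Matrix.mul_assoc, hpq, Matrix.mul_zero, Matrix.mul_zero]
    have e7 : qᵀ * Λ * q = Λ * q := by rw [hqΛ, Matrix.mul_assoc, hqq]
    have e8 : pᵀ * (Λ * N) * p = Λ * (N * p) := by
      rw [← Matrix.mul_assoc, hpΛ, Matrix.mul_assoc Λ p N, hpN, Matrix.mul_assoc,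
        Matrix.mul_assoc, hpp]
    rw [e1, e2, e3, e4, e5, e6, e7, e8, ← Matrix.mul_add, ← Matrix.mul_add, add_zero,
      add_comm q (N * p)]

/-- the isometry between the two halves -/
theorem psi_iso {Λ p q N s d : Matrix κ κ ℚ} (hpp : p * p = p) (hqq : q * q = q)
    (hpq : p * q = 0) (hqp : q * p = 0) (hpq1 : p + q = 1) (hpΛ : pᵀ * Λ = Λ * p)
    (hqΛ : qᵀ * Λ = Λ * q) (hpN : p * N = N * p) (hqN : q * N = N * q)
    (hpd : p * d = d * q) (hqd : q * d = d * p) (hsp : s * p = p * s) (hsq : s * q = q * s)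
    (hsd : s * d = d * s) (hsN : s * N = N * s) (hdN : d * N = N * d)
    (hss : s * s = N + d * d) (hNΛ : Nᵀ * Λ = Λ * N) (hsΛ : sᵀ * Λ = Λ * s)
    (hdΛ : dᵀ * Λ = Λ * d) (hs : IsUnit s.det) (hN : IsUnit N.det) (hΛ : IsUnit Λ.det) :
    cl (Λ * (p + N * q)) = cl (Λ * (N * p + q)) := by
  have hs1 : s⁻¹ * s = 1 := Matrix.nonsing_inv_mul _ hs
  set u := p * (1 - d) + q * (N + d) with hu
  set u' := (1 - d) * p + (N + d) * q with hu'
  -- central computation
  have hcore : u' * (N * p + q) * u = (s * s) * (p + N * q) := by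
    have e1 : p * (N * p + q) = N * p := by
      rw [Matrix.mul_add, ← Matrix.mul_assoc, hpN, Matrix.mul_assoc, hpp, hpq, add_zero]
    have e2 : q * (N * p + q) = q := by
      rw [Matrix.mul_add, ← Matrix.mul_assoc, hqN, Matrix.mul_assoc, hqp, hqq, Matrix.mul_zero,
        zero_add]
    have e3 : p * u = p * (1 - d) := by
      rw [hu, Matrix.mul_add, ← Matrix.mul_assoc, ← Matrix.mul_assoc, hpp, hpq,
        Matrix.zero_mul, add_zero]
    have e4 : q * u = q * (N + d) := by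
      rw [hu, Matrix.mul_add, ← Matrix.mul_assoc, ← Matrix.mul_assoc, hqp, hqq,
        Matrix.zero_mul, zero_add]
    have e5 : p * (1 - d) = p - d * q := by rw [Matrix.mul_sub, Matrix.mul_one, hpd]
    have e6 : q * (N + d) = N * q + d * p := by rw [Matrix.mul_add, hqN, hqd]
    have e7 : u' * (N * p + q) = (1 - d) * (N * p) + (N + d) * q := by
      rw [hu', Matrix.add_mul, Matrix.mul_assoc, Matrix.mul_assoc, e1, e2]
    rw [e7, Matrix.add_mul, Matrix.mul_assoc, Matrix.mul_assoc, Matrix.mul_assoc, e3, e4, e5,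
      e6, hss]
    have e8 : ∀ x : Matrix κ κ ℚ, d * (N * x) = N * (d * x) := by
      intro x; rw [← Matrix.mul_assoc, hdN, Matrix.mul_assoc]
    simp only [Matrix.mul_add, Matrix.add_mul, Matrix.mul_sub, Matrix.sub_mul, Matrix.one_mul,
      Matrix.mul_assoc, e8]
    abel
  have huΛ : uᵀ * Λ = Λ * u' := by
    rw [hu, hu', Matrix.transpose_add, Matrix.transpose_mul, Matrix.transpose_mul,
      Matrix.transpose_sub, Matrix.transpose_add, Matrix.transpose_one, Matrix.add_mul,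
      Matrix.mul_assoc, Matrix.mul_assoc, hpΛ, hqΛ, ← Matrix.mul_assoc, ← Matrix.mul_assoc,
      Matrix.sub_mul, Matrix.add_mul, Matrix.one_mul, hdΛ, hNΛ]
    simp only [Matrix.mul_add, Matrix.add_mul, Matrix.mul_sub, Matrix.sub_mul, Matrix.one_mul,
      Matrix.mul_assoc]
  have hsiΛ : (s⁻¹)ᵀ * Λ = Λ * s⁻¹ := by
    have h1 : (s⁻¹)ᵀ * sᵀ = 1 := by
      rw [← Matrix.transpose_mul, Matrix.mul_nonsing_inv _ hs, Matrix.transpose_one]
    calc (s⁻¹)ᵀ * Λ = (s⁻¹)ᵀ * Λ * (s * s⁻¹) := by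
          rw [Matrix.mul_nonsing_inv _ hs, Matrix.mul_one]
      _ = (s⁻¹)ᵀ * (Λ * s) * s⁻¹ := by simp only [Matrix.mul_assoc]
      _ = (s⁻¹)ᵀ * (sᵀ * Λ) * s⁻¹ := by rw [hsΛ]
      _ = ((s⁻¹)ᵀ * sᵀ) * Λ * s⁻¹ := by simp only [Matrix.mul_assoc]
      _ = Λ * s⁻¹ := by rw [h1, Matrix.one_mul]
  have hcu' : s * u' = u' * s := by
    have e9 : s * (1 - d) = (1 - d) * s := by
      rw [Matrix.mul_sub, Matrix.sub_mul, hsd, Matrix.mul_one, Matrix.one_mul]
    have e10 : s * (N + d) = (N + d) * s := by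
      rw [Matrix.mul_add, Matrix.add_mul, hsd, hsN]
    rw [hu']
    generalize 1 - d = a at *
    generalize N + d = b at *
    rw [Matrix.mul_add, Matrix.add_mul, ← Matrix.mul_assoc, ← Matrix.mul_assoc, e9, e10,
      Matrix.mul_assoc, Matrix.mul_assoc, Matrix.mul_assoc, Matrix.mul_assoc, hsp, hsq]
  have hcψ : s * (N * p + q) = (N * p + q) * s := by
    rw [Matrix.mul_add, Matrix.add_mul, ← Matrix.mul_assoc, hsN, Matrix.mul_assoc, hsp, hsq,
      ← Matrix.mul_assoc]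
  have hiu' := comm_inv hs hcu'
  have hiψ := comm_inv hs hcψ
  have hmain : (s⁻¹ * u)ᵀ * (Λ * (N * p + q)) * (s⁻¹ * u) = Λ * (p + N * q) := by
    calc (s⁻¹ * u)ᵀ * (Λ * (N * p + q)) * (s⁻¹ * u)
        = uᵀ * ((s⁻¹)ᵀ * Λ) * (N * p + q) * s⁻¹ * u := by
          rw [Matrix.transpose_mul]; simp only [Matrix.mul_assoc]
      _ = (uᵀ * Λ) * (s⁻¹ * ((N * p + q) * s⁻¹)) * u := by
          rw [hsiΛ]; simp only [Matrix.mul_assoc]
      _ = Λ * (u' * s⁻¹) * (s⁻¹ * (N * p + q)) * u := by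
          rw [huΛ, ← hiψ]; simp only [Matrix.mul_assoc]
      _ = Λ * (s⁻¹ * (u' * s⁻¹)) * (N * p + q) * u := by
          rw [← hiu']; simp only [Matrix.mul_assoc]
          rw [← Matrix.mul_assoc u', ← hiu']
          simp only [Matrix.mul_assoc]
      _ = Λ * (s⁻¹ * s⁻¹) * (u' * (N * p + q) * u) := by
          rw [← hiu']; simp only [Matrix.mul_assoc]
      _ = Λ * (s⁻¹ * ((s⁻¹ * s) * s)) * (p + N * q) := by
          rw [hcore]; simp only [Matrix.mul_assoc]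
      _ = Λ * (p + N * q) := by
          rw [hs1, Matrix.one_mul, hs1, Matrix.mul_one]
  symm
  rw [cl_eq]
  have hφ : IsUnit (Λ * (p + N * q)).det := by
    rw [Matrix.det_mul]
    refine hΛ.mul ?_
    have : (p + N * q) * (p + N⁻¹ * q) = 1 := by
      have hqNi : N⁻¹ * q = q * N⁻¹ := comm_inv hN hqN.symm
      have e1 : p * (p + N⁻¹ * q) = p := by
        rw [Matrix.mul_add, hpp, hqNi, ← Matrix.mul_assoc, hpq, Matrix.zero_mul, add_zero]
      have e2 : q * (p + N⁻¹ * q) = N⁻¹ * q := by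
        rw [Matrix.mul_add, hqp, ← Matrix.mul_assoc, ← hqNi, Matrix.mul_assoc, hqq, zero_add]
      rw [Matrix.add_mul, e1, Matrix.mul_assoc, e2, ← Matrix.mul_assoc,
        Matrix.mul_nonsing_inv _ hN, Matrix.one_mul, hpq1]
    exact Matrix.isUnit_det_of_right_inverse this
  have hdetu : IsUnit (s⁻¹ * u).det := by
    rw [← hmain, Matrix.det_mul] at hφ
    exact isUnit_of_mul_isUnit_right hφ
  exact ⟨s⁻¹ * u, (s⁻¹ * u)⁻¹, Matrix.mul_nonsing_inv _ hdetu, Matrix.nonsing_inv_mul _ hdetu,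
    hmain⟩

end abs

section concrete
variable {ι : Type} [Fintype ι] [DecidableEq ι]

attribute [local instance] Matrix.linftyOpNormedRing Matrix.linftyOpNormedAlgebra
  Matrix.linftyOpNormedAddCommGroup Matrix.linftyOpNormedSpace

theorem half_kron_det {c : Matrix ι ι ℚ} (hc1 : ‖c - 1‖ ≤ 1 / 2) :
    IsUnit ((1 / 2 : ℚ) • (c ⊗ₖ (1 : Matrix ι ι ℚ) + (1 : Matrix ι ι ℚ) ⊗ₖ c)).det := by
  set e := c - 1 with he
  have hc : c = 1 + e := by rw [he]; abel
  rw [isUnit_iff_ne_zero]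
  intro h0
  obtain ⟨x, hx, hux⟩ := Matrix.exists_mulVec_eq_zero_iff.mpr h0
  -- x (i,j) = -1/2 (e x(.,j)) i - 1/2 (e x(i,.)) j
  have hM : ∀ i j, ‖x (i, j)‖ ≤ ‖x‖ / 2 := by
    intro i j
    have h1 := congrFun hux (i, j)
    rw [Matrix.smul_mulVec, Matrix.add_mulVec] at h1
    have e1 : (c ⊗ₖ (1 : Matrix ι ι ℚ)) *ᵥ x = fun a => (c *ᵥ fun k => x (k, a.2)) a.1 := by
      ext ⟨a, b⟩
      simp only [Matrix.mulVec, dotProduct, Matrix.kroneckerMap_apply, Fintype.sum_prod_type,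
        Matrix.one_apply, mul_ite, mul_one, mul_zero, ite_mul, zero_mul]
      simp
    have e2 : ((1 : Matrix ι ι ℚ) ⊗ₖ c) *ᵥ x = fun a => (c *ᵥ fun k => x (a.1, k)) a.2 := by
      ext ⟨a, b⟩
      simp only [Matrix.mulVec, dotProduct, Matrix.kroneckerMap_apply, Fintype.sum_prod_type,
        Matrix.one_apply, ite_mul, zero_mul, one_mul]
      rw [Finset.sum_comm]
      simp
    have e3 : ∀ y : ι → ℚ, c *ᵥ y = y + e *ᵥ y := by
      intro y; rw [hc, Matrix.add_mulVec, Matrix.one_mulVec]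
    rw [e1, e2] at h1
    simp only [e3, Pi.smul_apply, Pi.add_apply, smul_eq_mul, Pi.zero_apply] at h1
    have h2 : x (i, j) = -(1 / 2) * ((e *ᵥ fun k => x (k, j)) i)
        + -(1 / 2) * ((e *ᵥ fun k => x (i, k)) j) := by linarith
    have h3 : ∀ (y : ι → ℚ) (a : ι), ‖y‖ ≤ ‖x‖ → ‖(e *ᵥ y) a‖ ≤ ‖x‖ / 2 := by
      intro y a hy
      have h4 := Matrix.linfty_opNorm_mulVec e y
      have h5 := norm_le_pi_norm (e *ᵥ y) a
      have h6 : ‖e‖ * ‖y‖ ≤ 1 / 2 * ‖x‖ := mul_le_mul hc1 hy (norm_nonneg _) (by norm_num)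
      linarith
    have h4 : ‖fun k => x (k, j)‖ ≤ ‖x‖ := by
      rw [pi_norm_le_iff_of_nonneg (norm_nonneg _)]
      intro k; exact norm_le_pi_norm x (k, j)
    have h5 : ‖fun k => x (i, k)‖ ≤ ‖x‖ := by
      rw [pi_norm_le_iff_of_nonneg (norm_nonneg _)]
      intro k; exact norm_le_pi_norm x (i, k)
    have h6 := h3 _ i h4
    have h7 := h3 _ j h5
    rw [h2]
    refine (norm_add_le _ _).trans ?_
    rw [norm_mul, norm_mul]
    have h8 : ‖(-(1 / 2) : ℚ)‖ = 1 / 2 := by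
      rw [← Rat.norm_cast_real, Real.norm_eq_abs]
      push_cast
      rw [abs_neg, abs_of_pos (by norm_num)]
    rw [h8]
    linarith
  have hle : ‖x‖ ≤ ‖x‖ / 2 := by
    rw [pi_norm_le_iff_of_nonneg (by positivity)]
    rintro ⟨i, j⟩
    exact hM i j
  have : 0 < ‖x‖ := norm_pos_iff.mpr hx
  linarith

/-- **(c)** `⟨L⟩² + ⟨Lc⟩² = 2 Y` with `Y` nondegenerate -/
theorem psi_sq {L c : Matrix ι ι ℚ} (hc : cᵀ * L = L * c) (hc1 : ‖c - 1‖ ≤ 1 / 2)
    (hL : IsUnit L.det) :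
    ∃ Y : Matrix (ι × ι) (ι × ι) ℚ, IsUnit Y.det ∧
      cl L ^ 2 + cl (L * c) ^ 2 = 2 * cl Y := by
  -- the swap
  set σ : Matrix (ι × ι) (ι × ι) ℚ := Matrix.of fun a b => if a = b.swap then 1 else 0 with hσd
  have hσl : ∀ (M : Matrix (ι × ι) (ι × ι) ℚ) a b, (σ * M) a b = M a.swap b := by
    intro M a b
    rw [Matrix.mul_apply, Finset.sum_eq_single a.swap]
    · simp [hσd]
    · intro x _ hx
      have : a ≠ x.swap := fun h => hx (by rw [h, Prod.swap_swap])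
      simp [hσd, this]
    · simp
  have hσr : ∀ (M : Matrix (ι × ι) (ι × ι) ℚ) a b, (M * σ) a b = M a b.swap := by
    intro M a b
    rw [Matrix.mul_apply, Finset.sum_eq_single b.swap]
    · simp [hσd]
    · intro x _ hx
      simp [hσd, hx]
    · simp
  have hσt : σᵀ = σ := by
    ext a b
    simp only [hσd, Matrix.transpose_apply, Matrix.of_apply]
    congr 1
    exact propext ⟨fun h => by rw [h, Prod.swap_swap], fun h => by rw [h, Prod.swap_swap]⟩
  have hσ2 : σ * σ = 1 := by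
    ext a b
    rw [hσl]
    simp only [hσd, Matrix.of_apply, Matrix.one_apply]
    congr 1
    exact propext ⟨fun h => Prod.swap_injective h, fun h => by rw [h]⟩
  have hσk : ∀ (X Z : Matrix ι ι ℚ), σ * (X ⊗ₖ Z) = (Z ⊗ₖ X) * σ := by
    intro X Z
    ext ⟨i, j⟩ ⟨k, l⟩
    rw [hσl, hσr]
    simp [Matrix.kroneckerMap_apply, mul_comm]
  set Λ : Matrix (ι × ι) (ι × ι) ℚ := L ⊗ₖ L with hΛd
  set N : Matrix (ι × ι) (ι × ι) ℚ := c ⊗ₖ c with hNd
  set c1 : Matrix (ι × ι) (ι × ι) ℚ := c ⊗ₖ (1 : Matrix ι ι ℚ) with hc1d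
  set c2 : Matrix (ι × ι) (ι × ι) ℚ := (1 : Matrix ι ι ℚ) ⊗ₖ c with hc2d
  set p : Matrix (ι × ι) (ι × ι) ℚ := (1 / 2 : ℚ) • (1 + σ) with hp
  set q : Matrix (ι × ι) (ι × ι) ℚ := (1 / 2 : ℚ) • (1 - σ) with hq
  set s : Matrix (ι × ι) (ι × ι) ℚ := (1 / 2 : ℚ) • (c1 + c2) with hsd
  set d : Matrix (ι × ι) (ι × ι) ℚ := (1 / 2 : ℚ) • (c1 - c2) with hdd
  have hc12 : c1 * c2 = N := by
    rw [hc1d, hc2d, ← Matrix.mul_kronecker_mul, Matrix.mul_one, Matrix.one_mul]
  have hc21 : c2 * c1 = N := by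
    rw [hc1d, hc2d, ← Matrix.mul_kronecker_mul, Matrix.mul_one, Matrix.one_mul]
  have hσc1 : σ * c1 = c2 * σ := hσk _ _
  have hσc2 : σ * c2 = c1 * σ := hσk _ _
  have hσN : σ * N = N * σ := hσk _ _
  have hσΛ : σᵀ * Λ = Λ * σ := by rw [hσt]; exact hσk _ _
  have hc1Λ : c1ᵀ * Λ = Λ * c1 := by
    rw [hc1d, hΛd, ← Matrix.kroneckerMap_transpose, ← Matrix.mul_kronecker_mul,
      ← Matrix.mul_kronecker_mul, Matrix.transpose_one, hc, Matrix.mul_one, Matrix.one_mul]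
  have hc2Λ : c2ᵀ * Λ = Λ * c2 := by
    rw [hc2d, hΛd, ← Matrix.kroneckerMap_transpose, ← Matrix.mul_kronecker_mul,
      ← Matrix.mul_kronecker_mul, Matrix.transpose_one, hc, Matrix.mul_one, Matrix.one_mul]
  have hNΛ : Nᵀ * Λ = Λ * N := by
    rw [← hc12, Matrix.transpose_mul, Matrix.mul_assoc, hc1Λ, ← Matrix.mul_assoc, hc2Λ,
      Matrix.mul_assoc, hc21, hc12]
  have hcdet : IsUnit c.det := by
    have h1 : Cn c := by
      have := Cn.one_add (e := c - 1) hc1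
      rwa [add_sub_cancel] at this
    exact h1.det
  have hNdet : IsUnit N.det := by
    rw [hNd, Matrix.det_kronecker]
    exact (hcdet.pow _).mul (hcdet.pow _)
  have hΛdet : IsUnit Λ.det := by
    rw [hΛd, Matrix.det_kronecker]
    exact (hL.pow _).mul (hL.pow _)
  have hsdet : IsUnit s.det := half_kron_det hc1
  have hpp : p * p = p := by
    rw [hp]
    simp only [Matrix.mul_add, Matrix.add_mul, Matrix.smul_mul, Matrix.mul_smul,
      Matrix.one_mul, Matrix.mul_one, hσ2]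
    module
  have hqq : q * q = q := by
    rw [hq]
    simp only [Matrix.mul_sub, Matrix.sub_mul, Matrix.smul_mul, Matrix.mul_smul,
      Matrix.one_mul, Matrix.mul_one, hσ2]
    module
  have hpq : p * q = 0 := by
    rw [hp, hq]
    simp only [Matrix.mul_sub, Matrix.add_mul, Matrix.smul_mul, Matrix.mul_smul,
      Matrix.one_mul, Matrix.mul_one, hσ2]
    module
  have hqp : q * p = 0 := by
    rw [hp, hq]
    simp only [Matrix.mul_add, Matrix.sub_mul, Matrix.smul_mul, Matrix.mul_smul,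
      Matrix.one_mul, Matrix.mul_one, hσ2]
    module
  have hpq1 : p + q = 1 := by rw [hp, hq]; module
  have hpΛ : pᵀ * Λ = Λ * p := by
    rw [hp, Matrix.transpose_smul, Matrix.transpose_add, Matrix.transpose_one, Matrix.smul_mul,
      Matrix.mul_smul, Matrix.add_mul, Matrix.mul_add, hσΛ, Matrix.one_mul, Matrix.mul_one]
  have hqΛ : qᵀ * Λ = Λ * q := by
    rw [hq, Matrix.transpose_smul, Matrix.transpose_sub, Matrix.transpose_one, Matrix.smul_mul,
      Matrix.mul_smul, Matrix.sub_mul, Matrix.mul_sub, hσΛ, Matrix.one_mul, Matrix.mul_one]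
  have hpN : p * N = N * p := by
    rw [hp, Matrix.smul_mul, Matrix.mul_smul, Matrix.add_mul, Matrix.mul_add, hσN,
      Matrix.one_mul, Matrix.mul_one]
  have hqN : q * N = N * q := by
    rw [hq, Matrix.smul_mul, Matrix.mul_smul, Matrix.sub_mul, Matrix.mul_sub, hσN,
      Matrix.one_mul, Matrix.mul_one]
  have hpd : p * d = d * q := by
    rw [hp, hq, hdd]
    simp only [Matrix.smul_mul, Matrix.mul_smul, Matrix.add_mul, Matrix.mul_sub,
      Matrix.sub_mul, Matrix.one_mul, Matrix.mul_one, hσc1, hσc2]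
    module
  have hqd : q * d = d * p := by
    rw [hp, hq, hdd]
    simp only [Matrix.smul_mul, Matrix.mul_smul, Matrix.mul_add, Matrix.mul_sub,
      Matrix.sub_mul, Matrix.one_mul, Matrix.mul_one, hσc1, hσc2]
    module
  have hsp : s * p = p * s := by
    rw [hp, hsd]
    simp only [Matrix.smul_mul, Matrix.mul_smul, Matrix.mul_add,
      Matrix.add_mul, Matrix.one_mul, Matrix.mul_one, hσc1, hσc2]
    module
  have hsq : s * q = q * s := by
    rw [hq, hsd]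
    simp only [Matrix.smul_mul, Matrix.mul_smul, Matrix.mul_add, Matrix.mul_sub,
      Matrix.sub_mul, Matrix.add_mul, Matrix.one_mul, Matrix.mul_one, hσc1, hσc2]
    module
  have hc1N : c1 * N = N * c1 := by
    conv_lhs => rw [← hc21]
    rw [← Matrix.mul_assoc, hc12]
  have hc2N : c2 * N = N * c2 := by
    conv_lhs => rw [← hc12]
    rw [← Matrix.mul_assoc, hc21]
  have hsdc : s * d = d * s := by
    rw [hsd, hdd]
    simp only [Matrix.smul_mul, Matrix.mul_smul, Matrix.mul_add, Matrix.mul_sub,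
      Matrix.sub_mul, Matrix.add_mul, hc12, hc21]
    module
  have hsN : s * N = N * s := by
    rw [hsd, Matrix.smul_mul, Matrix.mul_smul, Matrix.add_mul, Matrix.mul_add, hc1N, hc2N]
  have hdN : d * N = N * d := by
    rw [hdd, Matrix.smul_mul, Matrix.mul_smul, Matrix.sub_mul, Matrix.mul_sub, hc1N, hc2N]
  have hss : s * s = N + d * d := by
    rw [hsd, hdd]
    simp only [Matrix.smul_mul, Matrix.mul_smul, Matrix.mul_add, Matrix.mul_sub,
      Matrix.sub_mul, Matrix.add_mul, hc12, hc21]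
    module
  have hsΛ : sᵀ * Λ = Λ * s := by
    rw [hsd, Matrix.transpose_smul, Matrix.transpose_add, Matrix.smul_mul, Matrix.mul_smul,
      Matrix.add_mul, Matrix.mul_add, hc1Λ, hc2Λ]
  have hdΛ : dᵀ * Λ = Λ * d := by
    rw [hdd, Matrix.transpose_smul, Matrix.transpose_sub, Matrix.smul_mul, Matrix.mul_smul,
      Matrix.sub_mul, Matrix.mul_sub, hc1Λ, hc2Λ]
  have h1 := psi_diag hpp hqq hpq hqp hpq1 hpΛ hqΛ hpN hqN
  have h2 := psi_iso hpp hqq hpq hqp hpq1 hpΛ hqΛ hpN hqN hpd hqd hsp hsq hsdc hsN hdN hss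
    hNΛ hsΛ hdΛ hsdet hNdet hΛdet
  refine ⟨Λ * (p + N * q), ?_, ?_⟩
  · rw [Matrix.det_mul]
    refine hΛdet.mul ?_
    have : (p + N * q) * (p + N⁻¹ * q) = 1 := by
      have hqNi : N⁻¹ * q = q * N⁻¹ := comm_inv hNdet hqN.symm
      have e1 : p * (p + N⁻¹ * q) = p := by
        rw [Matrix.mul_add, hpp, hqNi, ← Matrix.mul_assoc, hpq, Matrix.zero_mul, add_zero]
      have e2 : q * (p + N⁻¹ * q) = N⁻¹ * q := by
        rw [Matrix.mul_add, hqp, ← Matrix.mul_assoc, ← hqNi, Matrix.mul_assoc, hqq, zero_add]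
      rw [Matrix.add_mul, e1, Matrix.mul_assoc, e2, ← Matrix.mul_assoc,
        Matrix.mul_nonsing_inv _ hNdet, Matrix.one_mul, hpq1]
    exact Matrix.isUnit_det_of_right_inverse this
  · rw [two_mul]
    conv_rhs => rw [h2]
    rw [← h2]
    rw [h2]
    have e1 : cl L ^ 2 = cl Λ := by rw [pow_two, CL.mul_def]
    have e2 : cl (L * c) ^ 2 = cl (Λ * N) := by
      rw [pow_two, CL.mul_def, hΛd, hNd, ← Matrix.mul_kronecker_mul]
    rw [e1, e2, h1, h2]

end concrete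
end Vale.Agent.P268.H294
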